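import Vale.Agent.P119.MM.CMeas
import Vale.Agent.P119.GC.Phase

/-!
# P119: random worlds of configurations (`helper228`)

The points of a labelled configuration are a random set, ordinary worlds, inserted sources and
removed trees give random worlds; the Mecke (GNZ) forms.
-/

open MeasureTheory Filter Topology Set
open scoped ENNReal

noncomputable section

namespace Vale.Agent.P119.MM

open KU M CTree GC

variable {X : Type*} [MeasurableSpace X] {α : Type*} [MeasurableSpace α]

/-- **The points of a configuration are a random set.** -/
theorem RS.conf [Nonempty α] : RS fun c : Conf α => ((pts c : Finset α) : Set α) := by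
  classical
  obtain ⟨a₀⟩ := ‹Nonempty α›
  refine ⟨ℕ, inferInstance, fun k c => if h : k < c.1 then c.2 ⟨k, h⟩ else a₀,
    fun k => {c | k < c.1}, fun k => ?_, fun k => ?_, fun c a => ?_⟩
  · refine measurable_conf.2 fun N => ?_
    by_cases h : k < N
    · have e : (fun Z : Fin N → α => if h : k < (⟨N, Z⟩ : Conf α).1 then Z ⟨k, h⟩ else a₀) =
          fun Z => Z ⟨k, h⟩ := funext fun Z => dif_pos h
      exact e ▸ measurable_pi_apply (⟨k, h⟩ : Fin N)
    · have e : (fun Z : Fin N → α => if h : k < (⟨N, Z⟩ : Conf α).1 then Z ⟨k, h⟩ else a₀) =
          fun _ => a₀ := funext fun Z => dif_neg h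
      exact e ▸ measurable_const
  · refine measurableSet_conf.2 fun N => ?_
    change MeasurableSet {_Z : Fin N → α | k < N}
    exact MeasurableSet.const _
  · rw [Finset.mem_coe, mem_pts]
    constructor
    · rintro ⟨i, rfl⟩
      exact ⟨i, i.2, dif_pos i.2⟩
    · rintro ⟨k, hk, hk'⟩
      have hk0 : k < c.1 := hk
      refine ⟨⟨k, hk0⟩, ?_⟩
      rw [← hk']
      change _ = if h : k < c.1 then c.2 ⟨k, h⟩ else a₀
      rw [dif_pos hk0]

theorem RS.pts [Nonempty α] {c : X → Conf α} (hc : Measurable c) :
    RS fun x => ((GC.pts (c x) : Finset α) : Set α) := RS.conf.comp hc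

theorem RS.tuple {n : ℕ} {z : X → Fin n → α} (hz : Measurable z) : RS fun x => Set.range (z x) :=
  RS.range fun i => (measurable_pi_apply i).comp hz

theorem measurable_src : Measurable src :=
  measurable_const.prodMk (measurable_id.prodMk measurable_const)

/-- **Ordinary worlds.** -/
theorem RS.world {w : X → Set Ph} (hw : RS w) : RS fun x => world (w x) :=
  hw.image_of_measurable measurable_src

theorem RS.world_pts {c : X → Conf Ph} (hc : Measurable c) :
    RS fun x => M.world ((GC.pts (c x) : Finset Ph) : Set Ph) := (RS.pts hc).world

/-- Removal of the leaves of a tree. -/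
theorem RS.sdiff_leaves {W : X → Set Src} (hW : RS W) {T : X → CTree} (hT : Measurable T) :
    RS fun x => W x \ (T x).leaves := hW.sdiff (RS.leaves hT)

/-- Insertion of the leaves of a tree. -/
theorem RS.union_leaves {W : X → Set Src} (hW : RS W) {T : X → CTree} (hT : Measurable T) :
    RS fun x => W x ∪ (T x).leaves := hW.union (RS.leaves hT)

theorem meas_mk {τ : Shape} {z : X → Fin τ.card → Src} (hz : Measurable z) :
    Measurable fun x => τ.mk (z x) := by
  induction τ with
  | leaf => exact meas_leaf ((measurable_pi_apply _).comp hz)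
  | node a b iha ihb =>
    refine meas_node (iha (z := fun x i => z x (Fin.castAdd b.card i)) ?_)
      (ihb (z := fun x i => z x (Fin.natAdd a.card i)) ?_)
    · exact measurable_pi_iff.2 fun i => (measurable_pi_apply _).comp hz
    · exact measurable_pi_iff.2 fun i => (measurable_pi_apply _).comp hz

theorem measurable_mk (τ : Shape) : Measurable τ.mk := meas_mk measurable_id

theorem meas_ord {τ : Shape} {z : X → Fin τ.card → Ph} (hz : Measurable z) :
    Measurable fun x => τ.ord (z x) :=
  meas_mk (measurable_pi_iff.2 fun i => measurable_src.comp ((measurable_pi_apply i).comp hz))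

theorem measurable_ord (τ : Shape) : Measurable τ.ord := meas_ord measurable_id

end Vale.Agent.P119.MM
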