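import Vale.Agent.P119.MM.Alive
import Vale.Agent.P119.MM.Worlds

/-!
# P119: survival and statuses in random worlds (`helper228`)

`W W' : X → Set Src` random worlds (`RS`), finite for every `x`; `T T' : X → CTree`, `a : X → Src`,
`t : X → ℝ` measurable.  Survival, statuses and their differences, as time sets (`SC`) and as
measurable functions, in the form needed for integrals over configurations and inserted sources.
-/

open MeasureTheory Filter Topology Set
open scoped ENNReal

noncomputable section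

namespace Vale.Agent.P119.MM

open KU M CTree

variable {X : Type*} [MeasurableSpace X] {Φ : E3 → ℝ} {ε : ℝ} {L : ℕ} {W W' : X → Set Src}
  {T T' : X → CTree} {a b : X → Src} {t : X → ℝ}

/-- A common label space for two random worlds and two measurable trees. -/
theorem exists_labels2 (hW : RS W) (hW' : RS W') (hT : Measurable T) (hT' : Measurable T') :
    ∃ (ι : Type) (_ : Countable ι) (z : X → ι → Src) (I J : X → Set ι) (f g : List Bool → ι),
      (∀ i, Measurable fun x => z x i) ∧ (∀ i, MeasurableSet {x | i ∈ I x}) ∧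
      (∀ i, MeasurableSet {x | i ∈ J x}) ∧ (∀ x, wd z I x = W x) ∧ (∀ x, wd z J x = W' x) ∧
      (∀ x, (fun p => z x (f p)) = atp (T x)) ∧ ∀ x, (fun p => z x (g p)) = atp (T' x) := by
  obtain ⟨ι, hι, z, I, f, g, hz, hI, h1, h2, h3⟩ := exists_labels hW hT hT'
  obtain ⟨κ, hκ, y, J, hy, hJ, h4⟩ := hW'
  refine ⟨ι ⊕ κ, inferInstance, fun x => Sum.elim (z x) (fun k => y k x),
    fun x => Sum.inl '' I x, fun x => Sum.inr '' {k | x ∈ J k}, fun p => Sum.inl (f p),
    fun p => Sum.inl (g p), ?_, ?_, ?_, fun x => ?_, fun x => ?_, fun x => h2 x, fun x => h3 x⟩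
  · rintro (i | k)
    · exact hz i
    · exact hy k
  · rintro (i | k)
    · convert hI i using 1
      ext x
      simp
    · convert MeasurableSet.empty using 1
      ext x
      simp
  · rintro (i | k)
    · convert MeasurableSet.empty using 1
      ext x
      simp
    · convert hJ k using 1
      ext x
      simp
  · rw [h1 x]
    unfold wd
    rw [image_image]
    rfl
  · ext σ
    rw [h4 x σ]
    unfold wd
    rw [image_image]
    rfl

/-! ### Survival -/

theorem measurableSet_tree_base (hΦ : IsPotential Φ) (hε : 0 < ε) (hW : RS W)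
    (hT : Measurable T) : MeasurableSet {x | base Φ ε L (W x) (T x)} :=
  (measurableSet_tree_leaves_subset hW hT).inter ((measurableSet_tree_ok hΦ hε.ne' hT).inter
    (meas_depth hT (measurableSet_Iic (a := L))))

theorem meas_ktm (hΦ : IsPotential Φ) (hε : 0 < ε) (hW : RS W) (hT : Measurable T) :
    Measurable fun x => ktm Φ ε L (W x) (T x) := by
  obtain ⟨ι, hι, z, I, J, f, g, hz, hI, -, h1, -, h2, -⟩ := exists_labels2 hW hW hT hT
  refine measurable_of_lt (g := fun x T => ktm Φ ε L (W x) T) hT fun τ => ?_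
  have h := measurable_ktm hΦ hε hz hI (τ.map f) (L := L)
  simpa only [LT.tree_map, h1, h2] using h

theorem measurableSet_tree_alive (hΦ : IsPotential Φ) (hε : 0 < ε) (hW : RS W)
    (hT : Measurable T) (ht : Measurable t) :
    MeasurableSet {x | alive Φ ε L (W x) (T x) (t x)} := by
  obtain ⟨ι, hι, z, I, J, f, g, hz, hI, -, h1, -, h2, -⟩ := exists_labels2 hW hW hT hT
  refine measurableSet_of_lt (P := fun x T => alive Φ ε L (W x) T (t x)) hT fun τ => ?_
  have h := measurableSet_alive hΦ hε hz hI (τ.map f) (L := L) ht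
  simpa only [LT.tree_map, h1, h2] using h

theorem SC.tree_alive (hΦ : IsPotential Φ) (hε : 0 < ε) (hW : RS W) (hf : ∀ x, (W x).Finite)
    (hT : Measurable T) : SC fun x => {s | M.alive Φ ε L (W x) (T x) s} := by
  obtain ⟨ι, hι, z, I, J, f, g, hz, hI, -, h1, -, h2, -⟩ := exists_labels2 hW hW hT hT
  refine SC.of_lt (A := fun x T => {s | M.alive Φ ε L (W x) T s}) hT fun τ => ?_
  have h := SC.alive hΦ hε hz hI (fun x => by rw [h1 x]; exact hf x) (τ.map f) (L := L)
  simpa only [LT.tree_map, h1, h2] using h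

theorem SC.tree_live (hΦ : IsPotential Φ) (hε : 0 < ε) (hW : RS W) (hT : Measurable T) :
    SC fun x => {s | M.live Φ ε L (W x) (T x) s} := by
  obtain ⟨ι, hι, z, I, J, f, g, hz, hI, -, h1, -, h2, -⟩ := exists_labels2 hW hW hT hT
  refine SC.of_lt (A := fun x T => {s | M.live Φ ε L (W x) T s}) hT fun τ => ?_
  have h := SC.live hΦ hε hz hI (τ.map f) (L := L)
  simpa only [LT.tree_map, h1, h2] using h

theorem SC.tree_lives (hΦ : IsPotential Φ) (hε : 0 < ε) (hW : RS W) (hf : ∀ x, (W x).Finite)
    (hT : Measurable T) : SC fun x => {s | M.lives Φ ε L (W x) (T x) s} := by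
  obtain ⟨ι, hι, z, I, J, f, g, hz, hI, -, h1, -, h2, -⟩ := exists_labels2 hW hW hT hT
  refine SC.of_lt (A := fun x T => {s | M.lives Φ ε L (W x) T s}) hT fun τ => ?_
  have h := SC.lives hΦ hε hz hI (fun x => by rw [h1 x]; exact hf x) (τ.map f) (L := L)
  simpa only [LT.tree_map, h1, h2] using h

theorem SC.tree_not_alive (hΦ : IsPotential Φ) (hε : 0 < ε) (hW : RS W)
    (hf : ∀ x, (W x).Finite) (hT : Measurable T) :
    SC fun x => {s | ¬M.alive Φ ε L (W x) (T x) s} := by
  obtain ⟨ι, hι, z, I, J, f, g, hz, hI, -, h1, -, h2, -⟩ := exists_labels2 hW hW hT hT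
  refine SC.of_lt (A := fun x T => {s | ¬M.alive Φ ε L (W x) T s}) hT fun τ => ?_
  have h := SC.not_alive hΦ hε hz hI (fun x => by rw [h1 x]; exact hf x) (τ.map f) (L := L)
  simpa only [LT.tree_map, h1, h2] using h

theorem SC.tree_not_lives (hΦ : IsPotential Φ) (hε : 0 < ε) (hW : RS W)
    (hf : ∀ x, (W x).Finite) (hT : Measurable T) :
    SC fun x => {s | ¬M.lives Φ ε L (W x) (T x) s} := by
  obtain ⟨ι, hι, z, I, J, f, g, hz, hI, -, h1, -, h2, -⟩ := exists_labels2 hW hW hT hT
  refine SC.of_lt (A := fun x T => {s | ¬M.lives Φ ε L (W x) T s}) hT fun τ => ?_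
  have h := SC.not_lives hΦ hε hz hI (fun x => by rw [h1 x]; exact hf x) (τ.map f) (L := L)
  simpa only [LT.tree_map, h1, h2] using h

theorem measurableSet_tree_live (hΦ : IsPotential Φ) (hε : 0 < ε) (hW : RS W)
    (hT : Measurable T) (ht : Measurable t) :
    MeasurableSet {x | live Φ ε L (W x) (T x) (t x)} := (SC.tree_live hΦ hε hW hT).mem ht

theorem measurableSet_tree_lives (hΦ : IsPotential Φ) (hε : 0 < ε) (hW : RS W)
    (hf : ∀ x, (W x).Finite) (hT : Measurable T) (ht : Measurable t) :
    MeasurableSet {x | lives Φ ε L (W x) (T x) (t x)} := (SC.tree_lives hΦ hε hW hf hT).mem ht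

/-! ### Statuses -/

theorem SC.rs_stat_some (hΦ : IsPotential Φ) (hε : 0 < ε) (hW : RS W) (hf : ∀ x, (W x).Finite)
    (ha : Measurable a) (hT : Measurable T) :
    SC fun x => {s | stat Φ ε L (W x) (a x) s = some (T x)} := by
  refine ((SC.cond (measurableSet_src_eq (meas_root hT) ha)).and
    (SC.tree_lives hΦ hε hW hf hT (L := L))).congr fun x s => ?_
  simp only [mem_ofPred_eq]
  exact stat_eq_some_iff hΦ hε (hf x)

theorem SC.rs_stat_ne_some (hΦ : IsPotential Φ) (hε : 0 < ε) (hW : RS W)
    (hf : ∀ x, (W x).Finite) (ha : Measurable a) (hT : Measurable T) :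
    SC fun x => {s | stat Φ ε L (W x) (a x) s ≠ some (T x)} := by
  refine ((SC.cond (measurableSet_src_eq (meas_root hT) ha).compl).or
    (SC.tree_not_lives hΦ hε hW hf hT (L := L))).congr fun x s => ?_
  simp only [mem_ofPred_eq, mem_compl_iff, ne_eq]
  rw [stat_eq_some_iff hΦ hε (hf x), not_and_or]

theorem SC.rs_stat_ne_none (hΦ : IsPotential Φ) (hε : 0 < ε) (hW : RS W)
    (hf : ∀ x, (W x).Finite) (ha : Measurable a) :
    SC fun x => {s | stat Φ ε L (W x) (a x) s ≠ none} := by
  obtain ⟨ι, hι, z, I, J, f, g, hz, hI, -, h1, -, -, -⟩ := exists_labels2 hW hW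
    (T := fun _ => CTree.leaf (0, 0, 0)) (T' := fun _ => CTree.leaf (0, 0, 0)) measurable_const
    measurable_const
  have h := SC.stat_ne_none hΦ hε hz hI (fun x => by rw [h1 x]; exact hf x) ha (L := L)
  simpa only [h1] using h

theorem SC.rs_stat_none (hΦ : IsPotential Φ) (hε : 0 < ε) (hW : RS W)
    (hf : ∀ x, (W x).Finite) (ha : Measurable a) :
    SC fun x => {s | stat Φ ε L (W x) (a x) s = none} := by
  obtain ⟨ι, hι, z, I, J, f, g, hz, hI, -, h1, -, -, -⟩ := exists_labels2 hW hW
    (T := fun _ => CTree.leaf (0, 0, 0)) (T' := fun _ => CTree.leaf (0, 0, 0)) measurable_const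
    measurable_const
  have h := SC.stat_none hΦ hε hz hI (fun x => by rw [h1 x]; exact hf x) ha (L := L)
  simpa only [h1] using h

/-- **The times at which the statuses in two random worlds are different.** -/
theorem SC.rs_stat_ne (hΦ : IsPotential Φ) (hε : 0 < ε) (hW : RS W) (hf : ∀ x, (W x).Finite)
    (hW' : RS W') (hf' : ∀ x, (W' x).Finite) (ha : Measurable a) :
    SC fun x => {s | stat Φ ε L (W x) (a x) s ≠ stat Φ ε L (W' x) (a x) s} := by
  obtain ⟨ι, hι, z, I, J, f, g, hz, hI, hJ, h1, h2, -, -⟩ := exists_labels2 hW hW'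
    (T := fun _ => CTree.leaf (0, 0, 0)) (T' := fun _ => CTree.leaf (0, 0, 0)) measurable_const
    measurable_const
  have h := SC.stat_ne hΦ hε hz hI (fun x => by rw [h1 x]; exact hf x) hJ
    (fun x => by rw [h2 x]; exact hf' x) ha (L := L)
  simpa only [h1, h2] using h

theorem SC.rs_stat_eq (hΦ : IsPotential Φ) (hε : 0 < ε) (hW : RS W) (hf : ∀ x, (W x).Finite)
    (hW' : RS W') (hf' : ∀ x, (W' x).Finite) (ha : Measurable a) (hb : Measurable b) :
    SC fun x => {s | stat Φ ε L (W x) (a x) s = stat Φ ε L (W' x) (b x) s} := by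
  obtain ⟨ι, hι, z, I, J, f, g, hz, hI, hJ, h1, h2, -, -⟩ := exists_labels2 hW hW'
    (T := fun _ => CTree.leaf (0, 0, 0)) (T' := fun _ => CTree.leaf (0, 0, 0)) measurable_const
    measurable_const
  have h := SC.stat_eq hΦ hε hz hI (fun x => by rw [h1 x]; exact hf x) hJ
    (fun x => by rw [h2 x]; exact hf' x) ha hb (L := L)
  simpa only [h1, h2] using h

theorem SC.rs_bad (hΦ : IsPotential Φ) (hε : 0 < ε) (hW : RS W) (hf : ∀ x, (W x).Finite)
    (ha : Measurable a) : SC fun x => {s | M.bad Φ ε L (W x) (a x) s} := by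
  obtain ⟨ι, hι, z, I, J, f, g, hz, hI, -, h1, -, -, -⟩ := exists_labels2 hW hW
    (T := fun _ => CTree.leaf (0, 0, 0)) (T' := fun _ => CTree.leaf (0, 0, 0)) measurable_const
    measurable_const
  have h := SC.bad hΦ hε hz hI (fun x => by rw [h1 x]; exact hf x) ha (L := L)
  simpa only [h1] using h

/-- **The status is a measurable function** of the world, the particle and the time. -/
theorem meas_stat (hΦ : IsPotential Φ) (hε : 0 < ε) (hW : RS W) (hf : ∀ x, (W x).Finite)
    (ha : Measurable a) (ht : Measurable t) :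
    Measurable fun x => stat Φ ε L (W x) (a x) (t x) := by
  refine measurable_option_iff.2 fun B hB => ?_
  have h := hW.trees.measurableSet_exists (P := {p : X × CTree |
    stat Φ ε L (W p.1) (a p.1) (t p.1) = some p.2 ∧ p.2 ∈ B})
    (((SC.rs_stat_some hΦ hε (hW.comp measurable_fst) (fun p => hf p.1)
      (ha.comp measurable_fst) measurable_snd (L := L)).mem (ht.comp measurable_fst)).inter
      (measurable_snd hB))
  convert h using 1
  ext x
  constructor
  · rintro ⟨T, h1, h2⟩
    exact ⟨T, ((stat_eq_some_iff hΦ hε (hf x)).1 h2).2.sub, h2, h1⟩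
  · rintro ⟨T, -, h1, h2⟩
    exact ⟨T, h2, h1⟩

/-- A function of an optional tree. -/
theorem meas_option_elim {β : Type*} [MeasurableSpace β] {o : X → Option CTree}
    (ho : Measurable o) {d : X → β} (hd : Measurable d) {F : X × CTree → β} (hF : Measurable F) :
    Measurable fun x => (o x).elim (d x) fun T => F (x, T) := by
  classical
  -- the tree, with a default value
  have h1 : Measurable fun q : Option CTree => q.getD (CTree.leaf (0, 0, 0)) := by
    intro B hB
    change MeasurableSet ((some : CTree → Option CTree) ⁻¹' _)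
    exact hB
  have h2 : MeasurableSet {x | o x = none} := ho measurableSet_none
  have h3 : Measurable fun x => F (x, (o x).getD (CTree.leaf (0, 0, 0))) :=
    hF.comp (measurable_id.prodMk (h1.comp ho))
  have e : (fun x => (o x).elim (d x) fun T => F (x, T)) =
      fun x => if o x = none then d x else F (x, (o x).getD (CTree.leaf (0, 0, 0))) := by
    funext x
    rcases hx : o x with _ | T
    · simp
    · simp
  rw [e]
  exact Measurable.ite h2 hd h3

/-- **The M-state of a particle is measurable.** -/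
theorem meas_mpos (hΦ : IsPotential Φ) (hε : 0 < ε) (hW : RS W) (hf : ∀ x, (W x).Finite)
    (ha : Measurable a) (ht : Measurable t) :
    Measurable fun x => M.mpos Φ ε L (W x) (a x) (t x) := by
  have h := meas_option_elim (meas_stat hΦ hε hW hf ha ht (L := L))
    (d := fun x => KU.free (t x) (a x).2.1) (F := fun p => st Φ ε p.2 (t p.1))
    (measurable_free (measurable_fst.comp (measurable_snd.comp ha)) ht)
    (meas_st hΦ hε.ne' measurable_snd (ht.comp measurable_fst))
  have e : (fun x => M.mpos Φ ε L (W x) (a x) (t x)) =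
      fun x => (stat Φ ε L (W x) (a x) (t x)).elim (KU.free (t x) (a x).2.1)
        fun T => st Φ ε T (t x) := by
    funext x
    unfold M.mpos
    rcases stat Φ ε L (W x) (a x) (t x) with _ | T
    · rfl
    · rfl
  rw [e]
  exact h

/-! ### Difference sets -/

/-- The particles whose statuses were different in the two worlds at some time `≤ t`. -/
def Diff (Φ : E3 → ℝ) (ε : ℝ) (L : ℕ) (W W' : Set Src) (t : ℝ) : Set Src :=
  {a | ∃ s ≤ t, stat Φ ε L W a s ≠ stat Φ ε L W' a s}

theorem Diff_subset (hΦ : IsPotential Φ) (hε : 0 < ε) {W W' : Set Src} (hW : W.Finite)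
    (hW' : W'.Finite) (t : ℝ) : Diff Φ ε L W W' t ⊆ W ∪ W' := by
  rintro a ⟨s, -, hs⟩
  by_contra hcon
  rw [mem_union, not_or] at hcon
  have h1 : ∀ V : Set Src, V.Finite → a ∉ V → stat Φ ε L V a s = none := by
    intro V hV ha
    by_contra h
    obtain ⟨T, hT⟩ := Option.ne_none_iff_exists'.1 h
    have h2 := (stat_eq_some_iff hΦ hε hV).1 hT
    exact ha (h2.1 ▸ h2.2.sub T.root_mem_leaves)
  exact hs ((h1 W hW hcon.1).trans (h1 W' hW' hcon.2).symm)

theorem Diff_mono {W W' : Set Src} {s t : ℝ} (h : s ≤ t) : Diff Φ ε L W W' s ⊆ Diff Φ ε L W W' t :=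
  fun _ ⟨r, hr, hr'⟩ => ⟨r, hr.trans h, hr'⟩

theorem Diff_comm (W W' : Set Src) (t : ℝ) : Diff Φ ε L W W' t = Diff Φ ε L W' W t := by
  ext a
  exact ⟨fun ⟨s, h, h'⟩ => ⟨s, h, h'.symm⟩, fun ⟨s, h, h'⟩ => ⟨s, h, h'.symm⟩⟩

/-- **Membership in the difference set is measurable**, jointly in everything. -/
theorem measurableSet_mem_Diff (hΦ : IsPotential Φ) (hε : 0 < ε) (hW : RS W)
    (hf : ∀ x, (W x).Finite) (hW' : RS W') (hf' : ∀ x, (W' x).Finite) (ha : Measurable a)
    (ht : Measurable t) : MeasurableSet {x | a x ∈ Diff Φ ε L (W x) (W' x) (t x)} :=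
  (SC.rs_stat_ne hΦ hε hW hf hW' hf' ha (L := L)).exists_le ht

/-- **The difference set is a random set.** -/
theorem RS.Diff (hΦ : IsPotential Φ) (hε : 0 < ε) (hW : RS W)
    (hf : ∀ x, (W x).Finite) (hW' : RS W') (hf' : ∀ x, (W' x).Finite) (ht : Measurable t) :
    RS fun x => MM.Diff Φ ε L (W x) (W' x) (t x) := by
  have h := (hW.union hW').inter_pred (P := {p : X × Src |
    p.2 ∈ MM.Diff Φ ε L (W p.1) (W' p.1) (t p.1)})
    (measurableSet_mem_Diff hΦ hε (hW.comp measurable_fst) (fun p => hf p.1)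
      (hW'.comp measurable_fst) (fun p => hf' p.1) measurable_snd (ht.comp measurable_fst))
  refine h.congr fun x => ?_
  ext a
  constructor
  · intro ha
    exact ⟨Diff_subset hΦ hε (hf x) (hf' x) (t x) ha, ha⟩
  · exact fun ha => ha.2

end Vale.Agent.P119.MM
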