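import Mathlib

/-!
# Countable measurable random sets (`helper228`)

`RS W`: the random set `W : X → Set β` is enumerated by countably many measurable functions
`z i : X → β` on measurable sets `I i ⊆ X`.  Closed under union, image, product, intersection with a
measurable set of `X × β`; membership, quantifiers over the elements and sums over the elements are
measurable.
-/

open MeasureTheory Set
open scoped ENNReal

namespace Vale.Agent.P119.MM

variable {X Y β γ : Type*} [MeasurableSpace X] [MeasurableSpace Y] [MeasurableSpace β]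
  [MeasurableSpace γ]

/-- Countable measurable random sets. -/
def RS (W : X → Set β) : Prop :=
  ∃ (ι : Type) (_ : Countable ι) (z : ι → X → β) (I : ι → Set X), (∀ i, Measurable (z i)) ∧
    (∀ i, MeasurableSet (I i)) ∧ ∀ x a, a ∈ W x ↔ ∃ i, x ∈ I i ∧ z i x = a

namespace RS

variable {W V : X → Set β}

theorem congr (hW : RS W) (h : ∀ x, V x = W x) : RS V := by
  have : V = W := funext h
  rwa [this]

theorem comp (hW : RS W) {f : Y → X} (hf : Measurable f) : RS fun y => W (f y) := by
  obtain ⟨ι, hι, z, I, hz, hI, h⟩ := hW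
  exact ⟨ι, hι, fun i y => z i (f y), fun i => f ⁻¹' I i, fun i => (hz i).comp hf,
    fun i => hf (hI i), fun y a => h (f y) a⟩

theorem iUnion {κ : Type} [Countable κ] {W : κ → X → Set β} (hW : ∀ k, RS (W k)) :
    RS fun x => ⋃ k, W k x := by
  choose ι hι z I hz hI h using hW
  refine ⟨Σ k, ι k, inferInstance, fun p => z p.1 p.2, fun p => I p.1 p.2, fun p => hz p.1 p.2,
    fun p => hI p.1 p.2, fun x a => ?_⟩
  rw [mem_iUnion]
  constructor
  · rintro ⟨k, hk⟩
    obtain ⟨i, hi⟩ := (h k x a).1 hk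
    exact ⟨⟨k, i⟩, hi⟩
  · rintro ⟨⟨k, i⟩, hi⟩
    exact ⟨k, (h k x a).2 ⟨i, hi⟩⟩

theorem union (hW : RS W) (hV : RS V) : RS fun x => W x ∪ V x := by
  have h := RS.iUnion (κ := Bool) (W := fun b => if b then W else V)
    (fun b => by cases b <;> simpa)
  refine h.congr fun x => ?_
  ext a
  simp [mem_iUnion, Bool.exists_bool, or_comm]

theorem empty : RS fun _ : X => (∅ : Set β) :=
  ⟨Empty, inferInstance, fun i => i.elim, fun i => i.elim, fun i => i.elim, fun i => i.elim,
    fun _ a => ⟨fun h => absurd h (notMem_empty a), fun ⟨i, _⟩ => i.elim⟩⟩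

theorem range {ι : Type} [Countable ι] {z : ι → X → β} (hz : ∀ i, Measurable (z i)) :
    RS fun x => Set.range fun i => z i x :=
  ⟨ι, inferInstance, z, fun _ => univ, hz, fun _ => MeasurableSet.univ,
    fun x _ => ⟨fun ⟨i, hi⟩ => ⟨i, mem_univ x, hi⟩, fun ⟨i, _, hi⟩ => ⟨i, hi⟩⟩⟩

theorem singleton {a : X → β} (ha : Measurable a) : RS fun x => ({a x} : Set β) :=
  (RS.range (ι := Unit) (z := fun _ => a) fun _ => ha).congr fun x => by
    ext b; simp

theorem insert (hW : RS W) {a : X → β} (ha : Measurable a) : RS fun x => Insert.insert (a x) (W x) :=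
  ((RS.singleton ha).union hW).congr fun x => by
    ext b; simp

/-- Restriction to a measurable event. -/
theorem inter_pred (hW : RS W) {P : Set (X × β)} (hP : MeasurableSet P) :
    RS fun x => {a | a ∈ W x ∧ (x, a) ∈ P} := by
  obtain ⟨ι, hι, z, I, hz, hI, h⟩ := hW
  refine ⟨ι, hι, z, fun i => I i ∩ {x | (x, z i x) ∈ P}, hz,
    fun i => (hI i).inter ((measurable_id.prodMk (hz i)) hP), fun x a => ?_⟩
  constructor
  · rintro ⟨h1, h2⟩
    obtain ⟨i, hi, rfl⟩ := (h x a).1 h1
    exact ⟨i, ⟨hi, h2⟩, rfl⟩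
  · rintro ⟨i, ⟨hi, h2⟩, rfl⟩
    exact ⟨(h x _).2 ⟨i, hi, rfl⟩, h2⟩

theorem ite (hW : RS W) (hV : RS V) {E : Set X} (hE : MeasurableSet E) [DecidablePred (· ∈ E)] :
    RS fun x => if x ∈ E then W x else V x := by
  have h1 := hW.inter_pred (P := {p | p.1 ∈ E}) (measurable_fst hE)
  have h2 := hV.inter_pred (P := {p | p.1 ∈ Eᶜ}) (measurable_fst hE.compl)
  refine (h1.union h2).congr fun x => ?_
  by_cases hx : x ∈ E
  · ext a; simp [hx]
  · ext a; simp [hx]

/-- Image under a jointly measurable function. -/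
theorem image (hW : RS W) {g : X → β → γ} (hg : Measurable fun p : X × β => g p.1 p.2) :
    RS fun x => g x '' W x := by
  obtain ⟨ι, hι, z, I, hz, hI, h⟩ := hW
  refine ⟨ι, hι, fun i x => g x (z i x), I, fun i => hg.comp (measurable_id.prodMk (hz i)), hI,
    fun x a => ?_⟩
  constructor
  · rintro ⟨b, hb, rfl⟩
    obtain ⟨i, hi, rfl⟩ := (h x b).1 hb
    exact ⟨i, hi, rfl⟩
  · rintro ⟨i, hi, rfl⟩
    exact ⟨_, (h x _).2 ⟨i, hi, rfl⟩, rfl⟩

theorem image_of_measurable (hW : RS W) {g : β → γ} (hg : Measurable g) :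
    RS fun x => g '' W x :=
  hW.image (g := fun _ => g) (hg.comp measurable_snd)

theorem prod (hW : RS W) {V : X → Set γ} (hV : RS V) : RS fun x => W x ×ˢ V x := by
  obtain ⟨ι, hι, z, I, hz, hI, h⟩ := hW
  obtain ⟨κ, hκ, y, J, hy, hJ, h'⟩ := hV
  refine ⟨ι × κ, inferInstance, fun p x => (z p.1 x, y p.2 x), fun p => I p.1 ∩ J p.2,
    fun p => (hz p.1).prodMk (hy p.2), fun p => (hI p.1).inter (hJ p.2), fun x a => ?_⟩
  constructor
  · rintro ⟨h1, h2⟩
    obtain ⟨i, hi, hi'⟩ := (h x a.1).1 h1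
    obtain ⟨j, hj, hj'⟩ := (h' x a.2).1 h2
    exact ⟨(i, j), ⟨hi, hj⟩, Prod.ext hi' hj'⟩
  · rintro ⟨⟨i, j⟩, ⟨hi, hj⟩, rfl⟩
    exact ⟨(h x _).2 ⟨i, hi, rfl⟩, (h' x _).2 ⟨j, hj, rfl⟩⟩

/-- The union over the elements of a random set. -/
theorem biUnion (hW : RS W) {V : X × β → Set γ} (hV : RS V) :
    RS fun x => ⋃ a ∈ W x, V (x, a) := by
  obtain ⟨ι, hι, z, I, hz, hI, h⟩ := hW
  obtain ⟨κ, hκ, y, J, hy, hJ, h'⟩ := hV
  have hm : ∀ i, Measurable fun x => (x, z i x) := fun i => measurable_id.prodMk (hz i)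
  refine ⟨ι × κ, inferInstance, fun p x => y p.2 (x, z p.1 x),
    fun p => I p.1 ∩ {x | (x, z p.1 x) ∈ J p.2}, fun p => (hy p.2).comp (hm p.1),
    fun p => (hI p.1).inter (hm p.1 (hJ p.2)), fun x a => ?_⟩
  rw [mem_iUnion₂]
  constructor
  · rintro ⟨b, hb, hb'⟩
    obtain ⟨i, hi, rfl⟩ := (h x b).1 hb
    obtain ⟨j, hj, hj'⟩ := (h' _ a).1 hb'
    exact ⟨(i, j), ⟨hi, hj⟩, hj'⟩
  · rintro ⟨⟨i, j⟩, ⟨hi, hj⟩, hj'⟩
    exact ⟨_, (h x _).2 ⟨i, hi, rfl⟩, (h' _ a).2 ⟨j, hj, hj'⟩⟩

/-- **Quantifiers over the elements are measurable.** -/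
theorem measurableSet_exists (hW : RS W) {P : Set (X × β)} (hP : MeasurableSet P) :
    MeasurableSet {x | ∃ a ∈ W x, (x, a) ∈ P} := by
  obtain ⟨ι, hι, z, I, hz, hI, h⟩ := hW
  have : {x | ∃ a ∈ W x, (x, a) ∈ P} = ⋃ i, (I i ∩ {x | (x, z i x) ∈ P}) := by
    ext x
    simp only [mem_ofPred_eq, mem_iUnion, mem_inter_iff, h]
    constructor
    · rintro ⟨a, ⟨i, hi, rfl⟩, ha⟩; exact ⟨i, hi, ha⟩
    · rintro ⟨i, hi, ha⟩; exact ⟨_, ⟨i, hi, rfl⟩, ha⟩
  rw [this]
  exact MeasurableSet.iUnion fun i => (hI i).inter ((measurable_id.prodMk (hz i)) hP)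

theorem measurableSet_forall (hW : RS W) {P : Set (X × β)} (hP : MeasurableSet P) :
    MeasurableSet {x | ∀ a ∈ W x, (x, a) ∈ P} := by
  have h := (hW.measurableSet_exists hP.compl).compl
  convert h using 1
  ext x
  simp

theorem measurableSet_nonempty (hW : RS W) : MeasurableSet {x | (W x).Nonempty} := by
  convert hW.measurableSet_exists (P := univ) MeasurableSet.univ using 1
  ext x
  simp [Set.Nonempty]

/-- **Membership is measurable.** -/
theorem measurableSet_mem [MeasurableEq β] (hW : RS W) :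
    MeasurableSet {p : X × β | p.2 ∈ W p.1} := by
  have h := (hW.comp (measurable_fst (α := X) (β := β))).measurableSet_exists
    (P := {q : (X × β) × β | q.1.2 = q.2})
    (measurableSet_eq_fun (measurable_snd.comp measurable_fst) measurable_snd)
  convert h using 1
  ext p
  constructor
  · intro h; exact ⟨p.2, h, rfl⟩
  · rintro ⟨a, ha, h⟩
    have h' : p.2 = a := h
    change p.2 ∈ W p.1
    rw [h']
    exact ha

theorem measurableSet_mem_of [MeasurableEq β] (hW : RS W) {a : X → β} (ha : Measurable a) :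
    MeasurableSet {x | a x ∈ W x} :=
  (measurable_id.prodMk ha) hW.measurableSet_mem

theorem sdiff [MeasurableEq β] (hW : RS W) (hV : RS V) : RS fun x => W x \ V x :=
  hW.inter_pred hV.measurableSet_mem.compl

theorem inter [MeasurableEq β] (hW : RS W) (hV : RS V) : RS fun x => W x ∩ V x :=
  hW.inter_pred hV.measurableSet_mem

theorem measurableSet_subset [MeasurableEq β] (hW : RS W) (hV : RS V) :
    MeasurableSet {x | W x ⊆ V x} :=
  hW.measurableSet_forall hV.measurableSet_mem

theorem measurableSet_eq [MeasurableEq β] (hW : RS W) (hV : RS V) :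
    MeasurableSet {x | W x = V x} := by
  have := (hW.measurableSet_subset hV).inter (hV.measurableSet_subset hW)
  convert this using 1
  ext x
  exact Subset.antisymm_iff

theorem measurableSet_disjoint [MeasurableEq β] (hW : RS W) (hV : RS V) :
    MeasurableSet {x | Disjoint (W x) (V x)} := by
  have := (hW.inter hV).measurableSet_nonempty.compl
  convert this using 1
  ext x
  simp [Set.disjoint_iff_inter_eq_empty, not_nonempty_iff_eq_empty]

/-- **Sums over the elements are measurable.** -/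
theorem measurable_tsum [MeasurableEq β] (hW : RS W) {F : X × β → ℝ≥0∞} (hF : Measurable F) :
    Measurable fun x => ∑' a : W x, F (x, a) := by
  classical
  obtain ⟨ι, hι, z, I, hz, hI, h⟩ := hW
  obtain ⟨e, he⟩ := hι.exists_injective_nat
  -- the labels which are the first ones of their value
  set J : ι → Set X := fun i => I i ∩ ⋂ j, ⋂ (_ : e j < e i), (I j ∩ {x | z j x = z i x})ᶜ with hJ
  have hJm : ∀ i, MeasurableSet (J i) := fun i =>
    (hI i).inter (MeasurableSet.iInter fun j => MeasurableSet.iInter fun _ =>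
      ((hI j).inter (measurableSet_eq_fun (hz j) (hz i))).compl)
  have key : ∀ x, ∑' a : W x, F (x, a) = ∑' i, (J i).indicator (fun x => F (x, z i x)) x := by
    intro x
    have hmem : ∀ i : {i // x ∈ J i}, z i x ∈ W x := fun i => (h x _).2 ⟨i, i.2.1, rfl⟩
    have hbij : Function.Bijective fun i : {i // x ∈ J i} => (⟨z i x, hmem i⟩ : W x) := by
      constructor
      · rintro ⟨i, hi⟩ ⟨j, hj⟩ hij
        have hij' : z i x = z j x := congrArg Subtype.val hij
        rcases lt_trichotomy (e i) (e j) with hlt | heq | hlt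
        · have := mem_iInter₂.1 hj.2 i hlt
          exact absurd ⟨hi.1, hij'⟩ this
        · exact Subtype.ext (he heq)
        · have := mem_iInter₂.1 hi.2 j hlt
          exact absurd ⟨hj.1, hij'.symm⟩ this
      · rintro ⟨a, ha⟩
        have hex : ∃ n, ∃ i, e i = n ∧ x ∈ I i ∧ z i x = a := by
          obtain ⟨i, hi⟩ := (h x a).1 ha
          exact ⟨e i, i, rfl, hi⟩
        obtain ⟨i, hi1, hi2, hi3⟩ := Nat.find_spec hex
        refine ⟨⟨i, hi2, ?_⟩, Subtype.ext hi3⟩
        refine mem_iInter₂.2 fun j hj hcon => ?_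
        refine Nat.find_min hex (m := e j) (by rw [← hi1]; exact hj) ⟨j, rfl, hcon.1, ?_⟩
        exact hcon.2.trans hi3
    have h1 := (Equiv.ofBijective _ hbij).tsum_eq (fun a : W x => F (x, a))
    rw [← h1]
    rw [show (∑' i, (J i).indicator (fun x => F (x, z i x)) x) =
      ∑' i, ({i | x ∈ J i} : Set ι).indicator (fun i => F (x, z i x)) i from rfl, ← tsum_subtype]
    rfl
  simp_rw [key]
  exact Measurable.tsum fun i => (hF.comp (measurable_id.prodMk (hz i))).indicator (hJm i)

/-- The sum over the elements, as a sum over the whole space. -/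
theorem measurable_tsum_indicator [MeasurableEq β] (hW : RS W) {F : X × β → ℝ≥0∞}
    (hF : Measurable F) : Measurable fun x => ∑' a : β, (W x).indicator (fun a => F (x, a)) a := by
  have h := hW.measurable_tsum hF
  have e : (fun x => ∑' a : β, (W x).indicator (fun a => F (x, a)) a) =
      fun x => ∑' a : W x, F (x, a) := by
    funext x
    rw [← tsum_subtype]
  rw [e]
  exact h

/-- A sum of a function which is supported on a random set. -/
theorem measurable_tsum_of_support [MeasurableEq β] (hW : RS W) {F : X × β → ℝ≥0∞}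
    (hF : Measurable F) (hFW : ∀ x a, F (x, a) ≠ 0 → a ∈ W x) :
    Measurable fun x => ∑' a : β, F (x, a) := by
  have h := hW.measurable_tsum_indicator hF
  have e : (fun x => ∑' a : β, F (x, a)) =
      fun x => ∑' a : β, (W x).indicator (fun a => F (x, a)) a := by
    funext x
    refine tsum_congr fun a => ?_
    by_cases ha : a ∈ W x
    · rw [indicator_of_mem ha]
    · rw [indicator_of_notMem ha]
      by_contra hcon
      exact ha (hFW x a hcon)
  rw [e]
  exact h

/-- The number of elements is measurable. -/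
theorem measurable_encard [MeasurableEq β] (hW : RS W) :
    Measurable fun x => ((W x).encard : ℝ≥0∞) := by
  have h := hW.measurable_tsum (F := fun _ => 1) measurable_const
  simpa using h

end RS

end Vale.Agent.P119.MM
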