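import Mathlib

/-!
# P119: sets of times which depend measurably on a parameter (`helper755`)

`SC A`: the set of times `A x` is a countable union of sets `{s | F x s ≤ 0}` with `F` measurable in `x` and
continuous in `s`.  For such sets all questions `does A x meet [l x, u x]`, and the first time, are
measurable in `x`.
-/

open MeasureTheory Filter Topology Set
open scoped ENNReal

noncomputable section

namespace Vale.Agent.P119.MM

variable {X Y : Type*} [MeasurableSpace X] [MeasurableSpace Y]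

/-- Countable unions of sets `{s | F x s ≤ 0}`. -/
def SC (A : X → Set ℝ) : Prop :=
  ∃ F : ℕ → X → ℝ → ℝ, (∀ n s, Measurable fun x => F n x s) ∧ (∀ n x, Continuous (F n x)) ∧
    ∀ x s, s ∈ A x ↔ ∃ n, F n x s ≤ 0

variable {A B : X → Set ℝ}

theorem SC.congr (h : SC A) (hAB : ∀ x s, s ∈ B x ↔ s ∈ A x) : SC B := by
  obtain ⟨F, h1, h2, h3⟩ := h
  exact ⟨F, h1, h2, fun x s => (hAB x s).trans (h3 x s)⟩

theorem SC.comp (h : SC A) {f : Y → X} (hf : Measurable f) : SC fun y => A (f y) := by
  obtain ⟨F, h1, h2, h3⟩ := h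
  exact ⟨fun n y s => F n (f y) s, fun n s => (h1 n s).comp hf, fun n y => h2 n (f y),
    fun y s => h3 (f y) s⟩

theorem SC.closed {F : X → ℝ → ℝ} (hF : ∀ s, Measurable fun x => F x s)
    (hc : ∀ x, Continuous (F x)) : SC fun x => {s | F x s ≤ 0} :=
  ⟨fun _ => F, fun _ => hF, fun _ => hc, fun _ _ => ⟨fun h => ⟨0, h⟩, fun ⟨_, h⟩ => h⟩⟩

theorem SC.iUnion {ι : Type*} [Countable ι] {A : ι → X → Set ℝ} (h : ∀ i, SC (A i)) :
    SC fun x => {s | ∃ i, s ∈ A i x} := by
  rcases isEmpty_or_nonempty ι with hι | hι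
  · refine ⟨fun _ _ _ => 1, fun _ _ => measurable_const, fun _ _ => continuous_const,
      fun x s => ⟨fun ⟨i, _⟩ => (hι.false i).elim, fun ⟨_, h⟩ => ?_⟩⟩
    norm_num at h
  · choose F h1 h2 h3 using h
    obtain ⟨e, he⟩ := exists_surjective_nat (ι × ℕ)
    refine ⟨fun n => F (e n).1 (e n).2, fun n => h1 _ _, fun n => h2 _ _, fun x s => ?_⟩
    constructor
    · rintro ⟨i, hi⟩
      obtain ⟨n, hn⟩ := (h3 i x s).1 hi
      obtain ⟨m, hm⟩ := he (i, n)
      refine ⟨m, ?_⟩
      change F (e m).1 (e m).2 x s ≤ 0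
      rw [hm]; exact hn
    · rintro ⟨m, hm⟩
      exact ⟨(e m).1, (h3 _ x s).2 ⟨(e m).2, hm⟩⟩

theorem SC.or (hA : SC A) (hB : SC B) : SC fun x => {s | s ∈ A x ∨ s ∈ B x} := by
  have h := SC.iUnion (ι := Bool) (A := fun b => if b then A else B)
    (fun b => by cases b <;> simpa)
  refine h.congr fun x s => ?_
  simp [or_comm]

theorem SC.and (hA : SC A) (hB : SC B) : SC fun x => {s | s ∈ A x ∧ s ∈ B x} := by
  obtain ⟨F, h1, h2, h3⟩ := hA
  obtain ⟨G, k1, k2, k3⟩ := hB
  have h : SC fun x => {s | ∃ p : ℕ × ℕ, s ∈ {s | max (F p.1 x s) (G p.2 x s) ≤ 0}} :=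
    SC.iUnion fun p => SC.closed (fun s => (h1 _ s).max (k1 _ s)) fun x => (h2 _ x).max (k2 _ x)
  refine h.congr fun x s => ?_
  change s ∈ A x ∧ s ∈ B x ↔ ∃ p : ℕ × ℕ, max _ _ ≤ (0 : ℝ)
  rw [h3, k3]
  constructor
  · rintro ⟨⟨n, hn⟩, m, hm⟩
    exact ⟨(n, m), max_le hn hm⟩
  · rintro ⟨p, hp⟩
    exact ⟨⟨p.1, (le_max_left _ _).trans hp⟩, p.2, (le_max_right _ _).trans hp⟩

/-- A condition on the parameter only. -/
theorem SC.cond {S : Set X} (hS : MeasurableSet S) : SC fun x => {_s : ℝ | x ∈ S} := by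
  classical
  refine (SC.closed (F := fun x _ => if x ∈ S then 0 else 1)
    (fun s => Measurable.ite hS measurable_const measurable_const)
    (fun x => continuous_const)).congr fun x s => ?_
  simp only [mem_ofPred_eq]
  split_ifs with h <;> simp [h]

theorem SC.false : SC fun _ : X => {_s : ℝ | False} :=
  (SC.cond (X := X) MeasurableSet.empty).congr fun _ _ => Iff.rfl

theorem SC.true : SC fun _ : X => {_s : ℝ | True} :=
  (SC.cond (X := X) MeasurableSet.univ).congr fun x _ => by simp

theorem SC.ge {l : X → ℝ} (hl : Measurable l) : SC fun x => {s | l x ≤ s} :=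
  (SC.closed (F := fun x s => l x - s) (fun s => hl.sub measurable_const)
    (fun x => continuous_const.sub continuous_id)).congr fun x s => by
      simp only [mem_ofPred_eq]; exact sub_nonpos.symm

theorem SC.le {u : X → ℝ} (hu : Measurable u) : SC fun x => {s | s ≤ u x} :=
  (SC.closed (F := fun x s => s - u x) (fun s => measurable_const.sub hu)
    (fun x => continuous_id.sub continuous_const)).congr fun x s => by
      simp only [mem_ofPred_eq]; exact sub_nonpos.symm

theorem SC.open {F : X → ℝ → ℝ} (hF : ∀ s, Measurable fun x => F x s)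
    (hc : ∀ x, Continuous (F x)) : SC fun x => {s | F x s < 0} := by
  have h : SC fun x => {s | ∃ n : ℕ, s ∈ {s | F x s + 1 / ((n : ℝ) + 1) ≤ 0}} :=
    SC.iUnion fun n => SC.closed (fun s => (hF s).add measurable_const)
      fun x => (hc x).add continuous_const
  refine h.congr fun x s => ?_
  change F x s < 0 ↔ ∃ n : ℕ, F x s + 1 / ((n : ℝ) + 1) ≤ 0
  constructor
  · intro h1
    obtain ⟨n, hn⟩ := exists_nat_one_div_lt (neg_pos.2 h1)
    exact ⟨n, by linarith⟩
  · rintro ⟨n, hn⟩
    have : (0 : ℝ) < 1 / ((n : ℝ) + 1) := by positivity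
    linarith

theorem SC.eq {F : X → ℝ → ℝ} (hF : ∀ s, Measurable fun x => F x s)
    (hc : ∀ x, Continuous (F x)) : SC fun x => {s | F x s = 0} :=
  (SC.closed (F := fun x s => |F x s|) (fun s => (hF s).abs) (fun x => (hc x).abs)).congr
    fun x s => by simp

theorem SC.gt {l : X → ℝ} (hl : Measurable l) : SC fun x => {s | l x < s} :=
  (SC.open (F := fun x s => l x - s) (fun s => hl.sub measurable_const)
    (fun x => continuous_const.sub continuous_id)).congr fun x s => by
      simp only [mem_ofPred_eq]; exact sub_neg.symm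

theorem SC.lt {u : X → ℝ} (hu : Measurable u) : SC fun x => {s | s < u x} :=
  (SC.open (F := fun x s => s - u x) (fun s => measurable_const.sub hu)
    (fun x => continuous_id.sub continuous_const)).congr fun x s => by
      simp only [mem_ofPred_eq]; exact sub_neg.symm

theorem SC.eq_time {u : X → ℝ} (hu : Measurable u) : SC fun x => {s | s = u x} :=
  (SC.eq (F := fun x s => s - u x) (fun s => measurable_const.sub hu)
    (fun x => continuous_id.sub continuous_const)).congr fun x s => by
      simp only [mem_ofPred_eq]; exact sub_eq_zero.symm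

theorem SC.ne_time {u : X → ℝ} (hu : Measurable u) : SC fun x => {s | s ≠ u x} :=
  ((SC.lt hu).or (SC.gt hu)).congr fun _ _ => by
    simp only [mem_ofPred_eq]; exact ne_iff_lt_or_gt

/-! ### Meeting an interval -/

/-- The basic compactness statement. -/
theorem measurableSet_meet_closed {F : X → ℝ → ℝ} (hF : ∀ s, Measurable fun x => F x s)
    (hc : ∀ x, Continuous (F x)) {l u : X → ℝ} (hl : Measurable l) (hu : Measurable u) :
    MeasurableSet {x | ∃ s, l x ≤ s ∧ s ≤ u x ∧ F x s ≤ 0} := by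
  have hj : Measurable (Function.uncurry fun (s : ℝ) (x : X) => F x s) :=
    measurable_uncurry_of_continuous_of_measurable (fun x => hc x) hF
  have hq : ∀ q : ℚ, Measurable fun x => F x (max (l x) (min (u x) q)) := by
    intro q
    have h1 : Measurable fun x => (max (l x) (min (u x) (q : ℝ)), x) :=
      (hl.max (hu.min measurable_const)).prodMk measurable_id
    exact hj.comp h1
  have e : {x | ∃ s, l x ≤ s ∧ s ≤ u x ∧ F x s ≤ 0} = {x | l x ≤ u x} ∩
      ⋂ n : ℕ, ⋃ q : ℚ, {x | F x (max (l x) (min (u x) q)) < 1 / ((n : ℝ) + 1)} := by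
    ext x
    simp only [mem_ofPred_eq, mem_inter_iff, mem_iInter, mem_iUnion]
    constructor
    · rintro ⟨s, h1, h2, h3⟩
      refine ⟨h1.trans h2, fun n => ?_⟩
      have hcont : Continuous fun q : ℝ => F x (max (l x) (min (u x) q)) :=
        (hc x).comp (continuous_const.max (continuous_const.min continuous_id))
      have hopen : IsOpen {q : ℝ | F x (max (l x) (min (u x) q)) < 1 / ((n : ℝ) + 1)} :=
        isOpen_lt hcont continuous_const
      have hne : s ∈ {q : ℝ | F x (max (l x) (min (u x) q)) < 1 / ((n : ℝ) + 1)} := by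
        change F x (max (l x) (min (u x) s)) < _
        rw [min_eq_right h2, max_eq_right h1]
        have : (0 : ℝ) < 1 / ((n : ℝ) + 1) := by positivity
        linarith
      obtain ⟨y, hy, q, rfl⟩ := Rat.denseRange_cast.exists_mem_open hopen ⟨s, hne⟩ |>.elim
        fun q hq => (⟨(q : ℝ), hq, q, rfl⟩ : ∃ y ∈ {q : ℝ | F x (max (l x) (min (u x) q)) <
          1 / ((n : ℝ) + 1)}, ∃ q : ℚ, (q : ℝ) = y)
      exact ⟨q, hy⟩
    · rintro ⟨h1, h2⟩
      obtain ⟨s, hs, hmin⟩ := isCompact_Icc.exists_isMinOn (nonempty_Icc.2 h1)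
        (hc x).continuousOn
      refine ⟨s, hs.1, hs.2, ?_⟩
      refine le_of_forall_pos_lt_add fun δ hδ => ?_
      obtain ⟨n, hn⟩ := exists_nat_one_div_lt hδ
      obtain ⟨q, hq⟩ := h2 n
      have h3 : max (l x) (min (u x) (q : ℝ)) ∈ Icc (l x) (u x) :=
        ⟨le_max_left _ _, max_le h1 (min_le_left _ _)⟩
      have h4 := hmin h3
      change F x s ≤ F x _ at h4
      linarith
  rw [e]
  refine (measurableSet_le hl hu).inter (MeasurableSet.iInter fun n => MeasurableSet.iUnion
    fun q => measurableSet_lt (hq q) measurable_const)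

theorem SC.meet (h : SC A) {l u : X → ℝ} (hl : Measurable l) (hu : Measurable u) :
    MeasurableSet {x | ∃ s, l x ≤ s ∧ s ≤ u x ∧ s ∈ A x} := by
  obtain ⟨F, h1, h2, h3⟩ := h
  have e : {x | ∃ s, l x ≤ s ∧ s ≤ u x ∧ s ∈ A x} =
      ⋃ n, {x | ∃ s, l x ≤ s ∧ s ≤ u x ∧ F n x s ≤ 0} := by
    ext x
    simp only [mem_ofPred_eq, mem_iUnion, h3]
    constructor
    · rintro ⟨s, a, b, n, c⟩
      exact ⟨n, s, a, b, c⟩
    · rintro ⟨n, s, a, b, c⟩
      exact ⟨s, a, b, n, c⟩
  rw [e]
  exact MeasurableSet.iUnion fun n => measurableSet_meet_closed (h1 n) (h2 n) hl hu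

/-- The section at a measurable time. -/
theorem SC.mem (h : SC A) {t : X → ℝ} (ht : Measurable t) : MeasurableSet {x | t x ∈ A x} := by
  refine (h.meet ht ht).congr ?_
  ext x
  constructor
  · rintro ⟨s, h1, h2, h3⟩
    rwa [le_antisymm h2 h1] at h3
  · exact fun hx => ⟨t x, le_rfl, le_rfl, hx⟩

theorem SC.nonempty (h : SC A) : MeasurableSet {x | ∃ s, s ∈ A x} := by
  have e : {x | ∃ s, s ∈ A x} = ⋃ n : ℕ, {x | ∃ s, -(n : ℝ) ≤ s ∧ s ≤ n ∧ s ∈ A x} := by
    ext x
    simp only [mem_ofPred_eq, mem_iUnion]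
    constructor
    · rintro ⟨s, hs⟩
      obtain ⟨n, hn⟩ := exists_nat_ge |s|
      exact ⟨n, s, (abs_le.1 hn).1, (abs_le.1 hn).2, hs⟩
    · rintro ⟨n, s, -, -, hs⟩
      exact ⟨s, hs⟩
  rw [e]
  exact MeasurableSet.iUnion fun n => h.meet measurable_const measurable_const

theorem SC.exists_lt (h : SC A) {u : X → ℝ} (hu : Measurable u) :
    MeasurableSet {x | ∃ s, s < u x ∧ s ∈ A x} :=
  ((SC.lt hu).and h).nonempty

theorem SC.exists_le (h : SC A) {u : X → ℝ} (hu : Measurable u) :
    MeasurableSet {x | ∃ s, s ≤ u x ∧ s ∈ A x} :=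
  ((SC.le hu).and h).nonempty

/-! ### The first time -/

/-- The first time, with value `⊤` if there is none. -/
def hT (A : Set ℝ) : EReal := ⨅ s ∈ A, (s : EReal)

theorem hT_lt_iff {A : Set ℝ} {c : EReal} : hT A < c ↔ ∃ s ∈ A, (s : EReal) < c := by
  unfold hT
  simp only [iInf_lt_iff, exists_prop]

theorem SC.measurable_hT (h : SC A) : Measurable fun x => hT (A x) := by
  refine measurable_of_Iio fun c => ?_
  change MeasurableSet {x | hT (A x) < c}
  simp only [hT_lt_iff]
  induction c with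
  | bot => simp
  | coe c =>
    simp only [EReal.coe_lt_coe_iff]
    refine (h.exists_lt (u := fun _ => c) measurable_const).congr ?_
    ext x
    exact ⟨fun ⟨s, a, b⟩ => ⟨s, b, a⟩, fun ⟨s, a, b⟩ => ⟨s, b, a⟩⟩
  | top =>
    simp only [EReal.coe_lt_top, and_true]
    exact h.nonempty

theorem toReal_hT (A : Set ℝ) : (hT A).toReal = sInf A := by
  rcases A.eq_empty_or_nonempty with h | h
  · subst h
    simp [hT]
  by_cases hb : BddBelow A
  · have h1 : hT A = ((sInf A : ℝ) : EReal) := by
      refine le_antisymm ?_ ?_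
      · refine le_of_forall_gt fun c hc => ?_
        rw [hT_lt_iff]
        induction c with
        | bot => exact absurd hc (by simp)
        | coe c =>
          obtain ⟨s, hs, hsc⟩ := exists_lt_of_csInf_lt h (EReal.coe_lt_coe_iff.1 hc)
          exact ⟨s, hs, EReal.coe_lt_coe_iff.2 hsc⟩
        | top => exact ⟨h.choose, h.choose_spec, EReal.coe_lt_top _⟩
      · unfold hT
        refine le_iInf₂ fun s hs => ?_
        exact EReal.coe_le_coe_iff.2 (csInf_le hb hs)
    rw [h1, EReal.toReal_coe]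
  · have h1 : hT A = ⊥ := by
      rw [← le_bot_iff]
      refine le_of_forall_gt fun c hc => ?_
      rw [hT_lt_iff]
      rw [not_bddBelow_iff] at hb
      induction c with
      | bot => exact absurd hc (by simp)
      | coe c =>
        obtain ⟨s, hs, hsc⟩ := hb c
        exact ⟨s, hs, EReal.coe_lt_coe_iff.2 hsc⟩
      | top => exact ⟨h.choose, h.choose_spec, EReal.coe_lt_top _⟩
    rw [h1, Real.sInf_of_not_bddBelow hb, EReal.toReal_bot]

theorem SC.measurable_sInf (h : SC A) : Measurable fun x => sInf (A x) := by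
  have := h.measurable_hT.ereal_toReal
  simpa only [toReal_hT] using this

end Vale.Agent.P119.MM
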