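import Vale.Agent.P119.M.Live
import Vale.Agent.P119.MM.Time

/-!
# P119: label trees and measurability of the geometry of trees (`helper755`)

`LT ι`: trees whose leaves are labels in `ι`; `τ.tree z` is the tree with the sources `z i`.  Here
`z : X → ι → Src` is measurable in `x`.
-/

open MeasureTheory Filter Topology Set
open scoped ENNReal

noncomputable section

namespace Vale.Agent.P119.MM

open KU M CTree

/-- Trees with labelled leaves. -/
inductive LT (ι : Type) : Type
  | leaf (i : ι) : LT ι
  | node (a b : LT ι) : LT ι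

namespace LT

variable {ι κ : Type}

/-- The collision tree with the sources `z i`. -/
def tree (z : ι → Src) : LT ι → CTree
  | leaf i => CTree.leaf (z i)
  | node a b => CTree.node (tree z a) (tree z b)

/-- The labels. -/
def labels : LT ι → Set ι
  | leaf i => {i}
  | node a b => labels a ∪ labels b

/-- Relabelling. -/
def map (f : ι → κ) : LT ι → LT κ
  | leaf i => leaf (f i)
  | node a b => node (map f a) (map f b)

theorem tree_map (f : ι → κ) (z : κ → Src) (τ : LT ι) :
    (τ.map f).tree z = τ.tree fun i => z (f i) := by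
  induction τ with
  | leaf i => rfl
  | node a b iha ihb => simp only [map, tree, iha, ihb]

theorem leaves_tree (z : ι → Src) (τ : LT ι) : (τ.tree z).leaves = z '' τ.labels := by
  induction τ with
  | leaf i => simp [tree, labels, CTree.leaves]
  | node a b iha ihb => simp only [tree, labels, CTree.leaves, iha, ihb, image_union]

theorem exists_tree {z : ι → Src} {I : Set ι} {T : CTree} (h : T.leaves ⊆ z '' I) :
    ∃ τ : LT ι, τ.labels ⊆ I ∧ τ.tree z = T := by
  induction T with
  | leaf σ =>
    obtain ⟨i, hi, hi'⟩ := h (mem_singleton σ)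
    exact ⟨leaf i, by simpa [labels] using hi, by rw [tree, hi']⟩
  | node a b iha ihb =>
    obtain ⟨τ, h1, h2⟩ := iha fun x hx => h (Or.inl hx)
    obtain ⟨υ, h3, h4⟩ := ihb fun x hx => h (Or.inr hx)
    exact ⟨node τ υ, union_subset h1 h3, by rw [tree, h2, h4]⟩

/-- The trees of height at most `n`. -/
def lev (ι : Type) : ℕ → Set (LT ι)
  | 0 => range leaf
  | n + 1 => lev ι n ∪ image2 node (lev ι n) (lev ι n)

theorem lev_mono {n m : ℕ} (h : n ≤ m) : lev ι n ⊆ lev ι m := by
  induction m, h using Nat.le_induction with
  | base => exact subset_rfl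
  | succ m _ ih => exact ih.trans subset_union_left

instance [Countable ι] : Countable (LT ι) := by
  have h1 : ∀ n, (lev ι n).Countable := by
    intro n
    induction n with
    | zero => exact countable_range _
    | succ n ih => exact ih.union (ih.image2 ih _)
  have h2 : (univ : Set (LT ι)) ⊆ ⋃ n, lev ι n := by
    rintro τ -
    rw [mem_iUnion]
    induction τ with
    | leaf i => exact ⟨0, mem_range_self i⟩
    | node a b iha ihb =>
      obtain ⟨n, hn⟩ := iha
      obtain ⟨m, hm⟩ := ihb
      exact ⟨max n m + 1, Or.inr ⟨a, lev_mono (le_max_left _ _) hn, b,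
        lev_mono (le_max_right _ _) hm, rfl⟩⟩
  exact countable_univ_iff.1 ((countable_iUnion h1).mono h2)

end LT

/-! ### Measurability in the parameter -/

variable {ι : Type} {X : Type*} [MeasurableSpace X] {z : X → ι → Src} {I : X → Set ι}
  {Φ : E3 → ℝ} {ε : ℝ}

theorem measurableSet_src_eq {f g : X → Src} (hf : Measurable f) (hg : Measurable g) :
    MeasurableSet {x | f x = g x} := measurableSet_eq_fun hf hg

theorem measurableSet_tree_eq (hz : ∀ i, Measurable fun x => z x i) (τ υ : LT ι) :
    MeasurableSet {x | τ.tree (z x) = υ.tree (z x)} := by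
  induction τ generalizing υ with
  | leaf i =>
    cases υ with
    | leaf j =>
      simp only [LT.tree, CTree.leaf.injEq]
      exact measurableSet_src_eq (hz i) (hz j)
    | node a b =>
      simp [LT.tree]
  | node a b iha ihb =>
    cases υ with
    | leaf j => simp [LT.tree]
    | node c d =>
      simp only [LT.tree, CTree.node.injEq]
      exact (iha c).inter (ihb d)

theorem measurableSet_mem_leaves {f : X → Src} (hf : Measurable f)
    (hz : ∀ i, Measurable fun x => z x i) (τ : LT ι) :
    MeasurableSet {x | f x ∈ (τ.tree (z x)).leaves} := by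
  induction τ with
  | leaf i =>
    simp only [LT.tree, CTree.leaves, mem_singleton_iff]
    exact measurableSet_src_eq hf (hz i)
  | node a b iha ihb =>
    simp only [LT.tree, CTree.leaves, mem_union]
    exact iha.union ihb

theorem measurableSet_disjoint (hz : ∀ i, Measurable fun x => z x i) (τ υ : LT ι) :
    MeasurableSet {x | Disjoint (τ.tree (z x)).leaves (υ.tree (z x)).leaves} := by
  induction τ with
  | leaf i =>
    simp only [LT.tree, CTree.leaves, disjoint_singleton_left]
    exact (measurableSet_mem_leaves (hz i) hz υ).compl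
  | node a b iha ihb =>
    simp only [LT.tree, CTree.leaves, disjoint_union_left]
    exact iha.inter ihb

/-- The world of the labels `I x`. -/
def wd (z : X → ι → Src) (I : X → Set ι) (x : X) : Set Src := z x '' I x

theorem measurableSet_mem_wd [Countable ι] (hz : ∀ i, Measurable fun x => z x i)
    (hI : ∀ i, MeasurableSet {x | i ∈ I x}) {f : X → Src} (hf : Measurable f) :
    MeasurableSet {x | f x ∈ wd z I x} := by
  have e : {x | f x ∈ wd z I x} = ⋃ i, {x | i ∈ I x} ∩ {x | z x i = f x} := by
    ext x
    simp only [mem_ofPred_eq, wd, mem_image, mem_iUnion, mem_inter_iff]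
  rw [e]
  exact MeasurableSet.iUnion fun i => (hI i).inter (measurableSet_src_eq (hz i) hf)

theorem measurableSet_leaves_subset [Countable ι] (hz : ∀ i, Measurable fun x => z x i)
    (hI : ∀ i, MeasurableSet {x | i ∈ I x}) (τ : LT ι) :
    MeasurableSet {x | (τ.tree (z x)).leaves ⊆ wd z I x} := by
  induction τ with
  | leaf i =>
    simp only [LT.tree, CTree.leaves, singleton_subset_iff]
    exact measurableSet_mem_wd hz hI (hz i)
  | node a b iha ihb =>
    simp only [LT.tree, CTree.leaves, union_subset_iff]
    exact iha.inter ihb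

theorem measurable_depth (hz : ∀ i, Measurable fun x => z x i) (τ : LT ι) :
    Measurable fun x => (τ.tree (z x)).depth := by
  induction τ with
  | leaf i => exact measurable_snd.comp (measurable_snd.comp (hz i))
  | node a b iha ihb => exact (iha.max ihb).add_const 1

theorem measurable_ln (hΦ : IsPotential Φ) (hε : ε ≠ 0) (hz : ∀ i, Measurable fun x => z x i)
    (τ : LT ι) : Measurable fun x => ln Φ ε (τ.tree (z x)) := by
  induction τ with
  | leaf i => exact measurable_fst.comp (measurable_snd.comp (hz i))
  | node a b iha ihb =>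
    exact measurable_fst.comp ((measurable_sc2 hΦ hε).comp (iha.prodMk ihb))

theorem measurable_sig (hΦ : IsPotential Φ) (hε : ε ≠ 0) (hz : ∀ i, Measurable fun x => z x i)
    (τ : LT ι) : Measurable fun x => sig Φ ε (τ.tree (z x)) := by
  cases τ with
  | leaf i => exact measurable_fst.comp (hz i)
  | node a b =>
    exact measurable_hitT.comp ((measurable_ln hΦ hε hz a).prodMk (measurable_ln hΦ hε hz b))

theorem measurable_ext (hΦ : IsPotential Φ) (hε : ε ≠ 0) (hz : ∀ i, Measurable fun x => z x i)
    (τ : LT ι) : Measurable fun x => ext Φ ε (τ.tree (z x)) := by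
  cases τ with
  | leaf i => exact measurable_fst.comp (hz i)
  | node a b =>
    exact (measurable_sepT hΦ).comp
      ((measurable_ln hΦ hε hz a).prodMk (measurable_ln hΦ hε hz b))

theorem measurable_pairLine_tree (hΦ : IsPotential Φ) (hε : ε ≠ 0)
    (hz : ∀ i, Measurable fun x => z x i) (a b : LT ι) {t : X → ℝ} (ht : Measurable t) :
    Measurable fun x => pairLine Φ ε (ln Φ ε (a.tree (z x)), ln Φ ε (b.tree (z x))) (t x) := by
  have h1 : Measurable fun x => ((t x, (ln Φ ε (a.tree (z x)), ln Φ ε (b.tree (z x)))) :
      ℝ × (Ph × Ph)) :=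
    ht.prodMk ((measurable_ln hΦ hε hz a).prodMk (measurable_ln hΦ hε hz b))
  have h2 := (measurable_pairLine (Φ := Φ) (ε := ε) hΦ).comp h1
  exact h2

theorem measurable_free {f : X → Ph} (hf : Measurable f) {t : X → ℝ} (ht : Measurable t) :
    Measurable fun x => free (t x) (f x) :=
  continuous_free.measurable.comp (ht.prodMk hf)

theorem measurable_st (hΦ : IsPotential Φ) (hε : ε ≠ 0) (hz : ∀ i, Measurable fun x => z x i)
    (τ : LT ι) {t : X → ℝ} (ht : Measurable t) :
    Measurable fun x => st Φ ε (τ.tree (z x)) (t x) := by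
  cases τ with
  | leaf i => exact measurable_free (measurable_fst.comp (measurable_snd.comp (hz i))) ht
  | node a b => exact measurable_fst.comp (measurable_pairLine_tree hΦ hε hz a b ht)

theorem measurable_rel_pair {f g : X → Ph} (hf : Measurable f) (hg : Measurable g) :
    Measurable fun x => rel ε (f x, g x) := by
  have : Continuous (rel ε) := by unfold rel; fun_prop
  exact this.measurable.comp (hf.prodMk hg)

theorem measurableSet_ok (hΦ : IsPotential Φ) (hε : ε ≠ 0) (hz : ∀ i, Measurable fun x => z x i)
    (τ : LT ι) : MeasurableSet {x | ok Φ ε (τ.tree (z x))} := by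
  induction τ with
  | leaf i => exact measurableSet_le measurable_const (measurable_fst.comp (hz i))
  | node a b iha ihb =>
    have h1 := measurable_ln hΦ hε hz a
    have h2 := measurable_ln hΦ hε hz b
    have h12 := h1.prodMk h2
    have h3 := measurable_ext hΦ hε hz a
    have h4 := measurable_ext hΦ hε hz b
    have h5 : Measurable fun x => KU.hitT ε (ln Φ ε (a.tree (z x)), ln Φ ε (b.tree (z x))) :=
      measurable_hitT.comp h12
    exact iha.inter (ihb.inter ((measurableSet_disjoint hz a b).inter
      ((measurableSet_meets.preimage h12).inter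
      (((measurableSet_exits hΦ).preimage (measurable_rel_pair h1 h2)).inter
      ((measurableSet_lt h3 h5).inter (measurableSet_lt h4 h5))))))

/-! ### Contact of two continuous paths -/

theorem SC.ctc {P Q : X → ℝ → Ph} (hP : ∀ s, Measurable fun x => P x s)
    (hQ : ∀ s, Measurable fun x => Q x s) (cP : ∀ x, Continuous (P x)) (cQ : ∀ x, Continuous (Q x)) :
    SC fun x => {s | Ctc ε (P x s) (Q x s)} := by
  have hd : ∀ s, Measurable fun x => ‖(P x s).1 - (Q x s).1‖ - ε := fun s =>
    ((measurable_fst.comp (hP s)).sub (measurable_fst.comp (hQ s))).norm.sub measurable_const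
  have cd : ∀ x, Continuous fun s => ‖(P x s).1 - (Q x s).1‖ - ε := fun x =>
    ((continuous_fst.comp (cP x)).sub (continuous_fst.comp (cQ x))).norm.sub continuous_const
  have hi : ∀ s, Measurable fun x =>
      (inner ℝ ((P x s).1 - (Q x s).1) ((P x s).2 - (Q x s).2) : ℝ) := fun s =>
    ((measurable_fst.comp (hP s)).sub (measurable_fst.comp (hQ s))).inner
      ((measurable_snd.comp (hP s)).sub (measurable_snd.comp (hQ s)))
  have ci : ∀ x, Continuous fun s =>
      (inner ℝ ((P x s).1 - (Q x s).1) ((P x s).2 - (Q x s).2) : ℝ) := fun x =>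
    ((continuous_fst.comp (cP x)).sub (continuous_fst.comp (cQ x))).inner
      ((continuous_snd.comp (cP x)).sub (continuous_snd.comp (cQ x)))
  refine ((SC.open hd cd).or ((SC.eq hd cd).and (SC.closed hi ci))).congr fun x s => ?_
  simp only [mem_ofPred_eq, Ctc, sub_neg, sub_eq_zero]
  constructor
  · rintro ⟨h1, h2⟩
    rcases h1.lt_or_eq with h3 | h3
    · exact Or.inl h3
    · exact Or.inr ⟨h3, not_lt.1 fun h4 => h2 ⟨h3, h4⟩⟩
  · rintro (h1 | ⟨h1, h2⟩)
    · exact ⟨h1.le, fun h3 => h1.ne h3.1⟩
    · exact ⟨h1.le, fun h3 => absurd h3.2 (not_lt.2 h2)⟩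

/-- Contact of two fixed phase points. -/
theorem measurableSet_ctc {P Q : X → Ph} (hP : Measurable P) (hQ : Measurable Q) :
    MeasurableSet {x | Ctc ε (P x) (Q x)} :=
  (SC.ctc (ε := ε) (P := fun x _ => P x) (Q := fun x _ => Q x) (fun _ => hP) (fun _ => hQ)
    (fun _ => continuous_const) (fun _ => continuous_const)).mem (t := fun _ => 0) measurable_const

/-! ### Hits -/

/-- **The hits of one tree by another depend measurably on the sources.** -/
theorem SC.hit (hΦ : IsPotential Φ) (hε : ε ≠ 0) (hz : ∀ i, Measurable fun x => z x i)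
    (τ υ : LT ι) : SC fun x => {s | CTree.hit Φ ε (τ.tree (z x)) (υ.tree (z x)) s} := by
  have hu := measurable_ln hΦ hε hz υ
  have hue := measurable_ext hΦ hε hz υ
  have mu : ∀ s, Measurable fun x => free s (ln Φ ε (υ.tree (z x))) := fun s =>
    measurable_free hu measurable_const
  have cu : ∀ x, Continuous fun s => free s (ln Φ ε (υ.tree (z x))) := fun x =>
    continuous_free_time _
  induction τ with
  | leaf i =>
    have h1 : Measurable fun x => (z x i).2.1 := measurable_fst.comp (measurable_snd.comp (hz i))
    have h2 := SC.ctc (ε := ε) (P := fun x s => free s (z x i).2.1)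
      (Q := fun x s => free s (ln Φ ε (υ.tree (z x)))) (fun s => measurable_free h1 measurable_const)
      mu (fun x => continuous_free_time _) cu
    refine ((SC.ge (measurable_fst.comp (hz i))).and ((SC.ge hue).and
      ((SC.cond (measurableSet_mem_leaves (hz i) hz υ).compl).and h2))).congr fun x s => ?_
    rfl
  | node a b iha ihb =>
    have hσ : Measurable fun x => sig Φ ε ((LT.node a b).tree (z x)) :=
      measurable_sig hΦ hε hz (LT.node a b)
    have hξ : Measurable fun x => ext Φ ε ((LT.node a b).tree (z x)) :=
      measurable_ext hΦ hε hz (LT.node a b)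
    have part : ∀ c d : LT ι, SC (fun x => {s | CTree.hit Φ ε (c.tree (z x)) (υ.tree (z x)) s}) →
        SC fun x => {s | CTree.hit Φ ε (c.tree (z x)) (υ.tree (z x)) s ∧
          ¬(υ.tree (z x) = d.tree (z x) ∧ s = sig Φ ε ((LT.node a b).tree (z x)))} := by
      intro c d hc
      refine (hc.and ((SC.cond (measurableSet_tree_eq hz υ d).compl).or (SC.ne_time hσ))).congr
        fun x s => ?_
      simp only [mem_ofPred_eq, mem_compl_iff, not_and_or]
    have hpl : ∀ s, Measurable fun x =>
        pairLine Φ ε (ln Φ ε (a.tree (z x)), ln Φ ε (b.tree (z x))) s := fun s =>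
      measurable_pairLine_tree hΦ hε hz a b measurable_const
    have cpl : ∀ x, Continuous fun s =>
        pairLine Φ ε (ln Φ ε (a.tree (z x)), ln Φ ε (b.tree (z x))) s := fun x =>
      continuous_pairLine hΦ _
    have h1 := SC.ctc (ε := ε)
      (P := fun x s => (pairLine Φ ε (ln Φ ε (a.tree (z x)), ln Φ ε (b.tree (z x))) s).1)
      (Q := fun x s => free s (ln Φ ε (υ.tree (z x)))) (fun s => measurable_fst.comp (hpl s)) mu
      (fun x => continuous_fst.comp (cpl x)) cu
    have h2 := SC.ctc (ε := ε)
      (P := fun x s => (pairLine Φ ε (ln Φ ε (a.tree (z x)), ln Φ ε (b.tree (z x))) s).2)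
      (Q := fun x s => free s (ln Φ ε (υ.tree (z x)))) (fun s => measurable_snd.comp (hpl s)) mu
      (fun x => continuous_snd.comp (cpl x)) cu
    refine (((SC.le hσ).and ((part a b iha).or (part b a ihb))).or ((SC.ge hσ).and ((SC.ge hue).and
      ((SC.cond (measurableSet_disjoint hz (LT.node a b) υ)).and
        (h1.or ((SC.lt hξ).and h2)))))).congr fun x s => ?_
    rfl

theorem measurable_fh (hΦ : IsPotential Φ) (hε : ε ≠ 0) (hz : ∀ i, Measurable fun x => z x i)
    (τ υ : LT ι) : Measurable fun x => fh Φ ε (τ.tree (z x)) (υ.tree (z x)) :=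
  (SC.hit hΦ hε hz τ υ).measurable_sInf

end Vale.Agent.P119.MM
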