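import Vale.Agent.P119.M.Shape
import Vale.Agent.P119.MM.LTree
import Vale.Agent.P119.MM.RandSet

/-!
# P119: the measurable space of collision trees (`helper228`)

`CTree` is a countable disjoint union (over the shapes) of powers of `Src`.  A tree is encoded by its
shape and the function `atp T : List Bool → Src` (leaf reached by a path).  All the geometric
functions are measurable, equality, disjointness, inclusion of leaves in a random world are
measurable; statements on label trees (`helper755`) are transferred to measurable trees
`T : X → CTree` by `measurableSet_of_LT`, `SC.of_LT`.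
-/

open MeasureTheory Filter Topology Set
open scoped ENNReal

noncomputable section

namespace Vale.Agent.P119.MM

open KU M CTree

/-! ### Shapes -/

instance : MeasurableSpace Shape := ⊤

instance : DiscreteMeasurableSpace Shape := ⟨fun _ => trivial⟩

instance : Countable Shape := by
  have h : (univ : Set Shape) ⊆ ⋃ n : ℕ, {τ | τ.depth ≤ n} := fun τ _ =>
    mem_iUnion.2 ⟨τ.depth, le_refl τ.depth⟩
  exact countable_univ_iff.1
    ((countable_iUnion fun n => (Shape.finite_depth n).countable).mono h)

/-- The shape of a tree. -/
def shape : CTree → Shape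
  | .leaf _ => .leaf
  | .node a b => .node (shape a) (shape b)

/-- The leaf reached by a path (`false` = left, `true` = right). -/
def atp : CTree → List Bool → Src
  | .leaf σ, _ => σ
  | .node a _, [] => atp a []
  | .node a _, false :: p => atp a p
  | .node _ b, true :: p => atp b p

/-- The label tree of a shape, labelled by paths. -/
def Shape.lt : Shape → LT (List Bool)
  | .leaf => .leaf []
  | .node a b => .node ((Shape.lt a).map (List.cons false)) ((Shape.lt b).map (List.cons true))

theorem lt_tree_atp (T : CTree) : (Shape.lt (shape T)).tree (atp T) = T := by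
  induction T with
  | leaf σ => rfl
  | node a b iha ihb =>
    change CTree.node (((Shape.lt (shape a)).map (List.cons false)).tree _)
      (((Shape.lt (shape b)).map (List.cons true)).tree _) = _
    rw [LT.tree_map, LT.tree_map]
    exact congrArg₂ CTree.node iha ihb

theorem range_atp (T : CTree) : range (atp T) = T.leaves := by
  induction T with
  | leaf σ =>
    ext a
    simp only [mem_range, atp, CTree.leaves, mem_singleton_iff, exists_const]
    exact eq_comm
  | node a b iha ihb =>
    change _ = a.leaves ∪ b.leaves
    rw [← iha, ← ihb]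
    ext σ
    constructor
    · rintro ⟨p, rfl⟩
      rcases p with _ | ⟨_ | _, p⟩
      · exact Or.inl ⟨[], rfl⟩
      · exact Or.inl ⟨p, rfl⟩
      · exact Or.inr ⟨p, rfl⟩
    · rintro (⟨p, rfl⟩ | ⟨p, rfl⟩)
      · exact ⟨false :: p, rfl⟩
      · exact ⟨true :: p, rfl⟩

/-- The shape of a label tree. -/
def LT.shp {ι : Type} : LT ι → Shape
  | .leaf _ => .leaf
  | .node a b => .node (LT.shp a) (LT.shp b)

theorem shape_tree {ι : Type} (z : ι → Src) (τ : LT ι) : shape (τ.tree z) = τ.shp := by
  induction τ with
  | leaf i => rfl
  | node a b iha ihb => exact congrArg₂ Shape.node iha ihb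

theorem shape_mk (τ : Shape) (z : Fin τ.card → Src) : shape (τ.mk z) = τ := by
  induction τ with
  | leaf => rfl
  | node a b iha ihb => exact congrArg₂ Shape.node (iha _) (ihb _)

/-! ### The measurable space -/

/-- The code of a tree. -/
def code (T : CTree) : Shape × (List Bool → Src) := (shape T, atp T)

theorem code_injective : Function.Injective code := fun T T' h => by
  obtain ⟨h1, h2⟩ := Prod.mk.inj h
  rw [← lt_tree_atp T, ← lt_tree_atp T', h1, h2]

instance : MeasurableSpace CTree := MeasurableSpace.comap code inferInstance

variable {X Y : Type*} [MeasurableSpace X] [MeasurableSpace Y] {β : Type*} [MeasurableSpace β]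

theorem measurable_code : Measurable code := comap_measurable code

theorem measurable_shape : Measurable shape := measurable_fst.comp measurable_code

theorem measurable_atp (p : List Bool) : Measurable fun T : CTree => atp T p :=
  (measurable_pi_apply p).comp (measurable_snd.comp measurable_code)

theorem measurable_ctree_iff {T : X → CTree} :
    Measurable T ↔ (Measurable fun x => shape (T x)) ∧ ∀ p, Measurable fun x => atp (T x) p := by
  constructor
  · intro h
    exact ⟨measurable_shape.comp h, fun p => (measurable_atp p).comp h⟩
  · rintro ⟨h1, h2⟩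
    have h3 : Measurable (code ∘ T) := h1.prodMk (measurable_pi_iff.2 h2)
    refine measurable_iff_comap_le.2 ?_
    change MeasurableSpace.comap T (MeasurableSpace.comap code _) ≤ _
    rw [MeasurableSpace.comap_comp]
    exact measurable_iff_comap_le.1 h3

instance : MeasurableEq CTree := by
  constructor
  have e : diagonal CTree = ((fun p : CTree × CTree => (shape p.1, shape p.2)) ⁻¹' diagonal Shape) ∩
      ⋂ q : List Bool, {p : CTree × CTree | atp p.1 q = atp p.2 q} := by
    ext ⟨T, T'⟩
    simp only [mem_diagonal_iff, mem_inter_iff, mem_preimage, mem_iInter, mem_ofPred_eq]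
    constructor
    · rintro rfl
      exact ⟨rfl, fun _ => rfl⟩
    · rintro ⟨h1, h2⟩
      exact code_injective (Prod.ext h1 (funext h2))
  rw [e]
  refine MeasurableSet.inter ?_ (MeasurableSet.iInter fun q => ?_)
  · exact ((measurable_shape.comp measurable_fst).prodMk (measurable_shape.comp measurable_snd))
      measurableSet_diagonal
  · exact measurableSet_eq_fun ((measurable_atp q).comp measurable_fst)
      ((measurable_atp q).comp measurable_snd)

theorem measurable_leaf : Measurable CTree.leaf :=
  measurable_ctree_iff.2 ⟨measurable_const, fun _ => measurable_id⟩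

theorem meas_leaf {σ : X → Src} (h : Measurable σ) : Measurable fun x => CTree.leaf (σ x) :=
  measurable_leaf.comp h

theorem meas_node {a b : X → CTree} (ha : Measurable a) (hb : Measurable b) :
    Measurable fun x => CTree.node (a x) (b x) := by
  refine measurable_ctree_iff.2 ⟨?_, fun p => ?_⟩
  · have h1 : Measurable fun q : Shape × Shape => Shape.node q.1 q.2 := .of_discrete
    exact h1.comp ((measurable_shape.comp ha).prodMk (measurable_shape.comp hb))
  · rcases p with _ | ⟨_ | _, p⟩
    · exact (measurable_atp []).comp ha
    · exact (measurable_atp p).comp ha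
    · exact (measurable_atp p).comp hb

/-! ### Transfer from label trees -/

section Transfer

variable {T T' : X → CTree}

/-- **Transfer of a property** from label trees to a measurable tree. -/
theorem measurableSet_of_lt {P : X → CTree → Prop} (hT : Measurable T)
    (h : ∀ τ : LT (List Bool), MeasurableSet {x | P x (τ.tree (atp (T x)))}) :
    MeasurableSet {x | P x (T x)} := by
  have e : {x | P x (T x)} = ⋃ τ : Shape, {x | shape (T x) = τ} ∩
      {x | P x ((Shape.lt τ).tree (atp (T x)))} := by
    ext x
    simp only [mem_ofPred_eq, mem_iUnion, mem_inter_iff]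
    constructor
    · intro hx
      refine ⟨shape (T x), rfl, ?_⟩
      rwa [lt_tree_atp]
    · rintro ⟨τ, rfl, hx⟩
      rwa [lt_tree_atp] at hx
  rw [e]
  exact MeasurableSet.iUnion fun τ =>
    ((measurable_shape.comp hT) (MeasurableSet.of_discrete (s := {τ}))).inter (h _)

/-- **Transfer of a function** from label trees to a measurable tree. -/
theorem measurable_of_lt {g : X → CTree → β} (hT : Measurable T)
    (h : ∀ τ : LT (List Bool), Measurable fun x => g x (τ.tree (atp (T x)))) :
    Measurable fun x => g x (T x) := fun B hB =>
  measurableSet_of_lt (P := fun x T => g x T ∈ B) hT fun τ => h τ hB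

/-- **Transfer of a set of times** from label trees to a measurable tree. -/
theorem SC.of_lt {A : X → CTree → Set ℝ} (hT : Measurable T)
    (h : ∀ τ : LT (List Bool), SC fun x => A x (τ.tree (atp (T x)))) :
    SC fun x => A x (T x) := by
  have h1 : SC fun x => {s | ∃ τ : Shape, s ∈ {s | s ∈ {_s : ℝ | x ∈ {x | shape (T x) = τ}} ∧
      s ∈ A x ((Shape.lt τ).tree (atp (T x)))}} :=
    SC.iUnion fun τ => (SC.cond ((measurable_shape.comp hT)
      (MeasurableSet.of_discrete (s := {τ})))).and (h _)
  refine h1.congr fun x s => ?_
  simp only [mem_ofPred_eq]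
  constructor
  · intro hx
    refine ⟨shape (T x), rfl, ?_⟩
    rwa [lt_tree_atp]
  · rintro ⟨τ, rfl, hx⟩
    rwa [lt_tree_atp] at hx

/-- A common label space for a random world and two measurable trees. -/
theorem exists_labels {W : X → Set Src} (hW : RS W) (hT : Measurable T) (hT' : Measurable T') :
    ∃ (ι : Type) (_ : Countable ι) (z : X → ι → Src) (I : X → Set ι) (f g : List Bool → ι),
      (∀ i, Measurable fun x => z x i) ∧ (∀ i, MeasurableSet {x | i ∈ I x}) ∧
      (∀ x, W x = wd z I x) ∧ (∀ x, (fun p => z x (f p)) = atp (T x)) ∧
      ∀ x, (fun p => z x (g p)) = atp (T' x) := by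
  obtain ⟨ι, hι, z, I, hz, hI, h⟩ := hW
  refine ⟨ι ⊕ (List Bool ⊕ List Bool), inferInstance,
    fun x => Sum.elim (fun i => z i x) (Sum.elim (atp (T x)) (atp (T' x))),
    fun x => Sum.inl '' {i | x ∈ I i}, fun p => Sum.inr (Sum.inl p), fun p => Sum.inr (Sum.inr p),
    ?_, ?_, fun x => ?_, fun x => rfl, fun x => rfl⟩
  · rintro (i | p | p)
    · exact hz i
    · exact (measurable_atp p).comp hT
    · exact (measurable_atp p).comp hT'
  · rintro (i | p)
    · convert hI i using 1
      ext x
      simp
    · convert MeasurableSet.empty using 1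
      ext x
      simp
  · ext a
    rw [h x a]
    unfold wd
    simp only [mem_image, mem_ofPred_eq]
    constructor
    · rintro ⟨i, hi, rfl⟩
      exact ⟨Sum.inl i, ⟨i, hi, rfl⟩, rfl⟩
    · rintro ⟨-, ⟨i, hi, rfl⟩, rfl⟩
      exact ⟨i, hi, rfl⟩

theorem exists_labels' (hT : Measurable T) (hT' : Measurable T') :
    ∃ (ι : Type) (_ : Countable ι) (z : X → ι → Src) (f g : List Bool → ι),
      (∀ i, Measurable fun x => z x i) ∧ (∀ x, (fun p => z x (f p)) = atp (T x)) ∧
      ∀ x, (fun p => z x (g p)) = atp (T' x) := by
  obtain ⟨ι, hι, z, -, f, g, h1, -, -, h2, h3⟩ := exists_labels RS.empty hT hT'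
  exact ⟨ι, hι, z, f, g, h1, h2, h3⟩

end Transfer

/-! ### The geometric functions -/

section Geometry

variable {T T' : X → CTree} {Φ : E3 → ℝ} {ε : ℝ}

theorem atp_nil (T : CTree) : atp T [] = T.root := by
  induction T with
  | leaf σ => rfl
  | node a b iha _ => exact iha

theorem measurable_tree_root : Measurable CTree.root := by
  have : CTree.root = fun T => atp T [] := funext fun T => (atp_nil T).symm
  rw [this]
  exact measurable_atp []

theorem measurable_tree_card : Measurable CTree.card := by
  have : CTree.card = fun T => (shape T).card := by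
    funext T
    induction T with
    | leaf σ => rfl
    | node a b iha ihb => exact congrArg₂ (· + ·) iha ihb
  rw [this]
  have h1 : Measurable Shape.card := .of_discrete
  exact h1.comp measurable_shape

theorem meas_root (hT : Measurable T) : Measurable fun x => (T x).root :=
  measurable_tree_root.comp hT

theorem meas_card (hT : Measurable T) : Measurable fun x => (T x).card :=
  measurable_tree_card.comp hT

theorem meas_depth (hT : Measurable T) : Measurable fun x => (T x).depth :=
  measurable_of_lt (g := fun _ T => T.depth) hT fun τ =>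
    measurable_depth (fun p => (measurable_atp p).comp hT) τ

theorem meas_ln (hΦ : IsPotential Φ) (hε : ε ≠ 0) (hT : Measurable T) :
    Measurable fun x => ln Φ ε (T x) :=
  measurable_of_lt (g := fun _ T => ln Φ ε T) hT fun τ =>
    measurable_ln hΦ hε (fun p => (measurable_atp p).comp hT) τ

theorem meas_sig (hΦ : IsPotential Φ) (hε : ε ≠ 0) (hT : Measurable T) :
    Measurable fun x => sig Φ ε (T x) :=
  measurable_of_lt (g := fun _ T => sig Φ ε T) hT fun τ =>
    measurable_sig hΦ hε (fun p => (measurable_atp p).comp hT) τ

theorem meas_ext (hΦ : IsPotential Φ) (hε : ε ≠ 0) (hT : Measurable T) :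
    Measurable fun x => ext Φ ε (T x) :=
  measurable_of_lt (g := fun _ T => ext Φ ε T) hT fun τ =>
    measurable_ext hΦ hε (fun p => (measurable_atp p).comp hT) τ

theorem meas_st (hΦ : IsPotential Φ) (hε : ε ≠ 0) (hT : Measurable T) {t : X → ℝ}
    (ht : Measurable t) : Measurable fun x => st Φ ε (T x) (t x) :=
  measurable_of_lt (g := fun x T => st Φ ε T (t x)) hT fun τ =>
    measurable_st hΦ hε (fun p => (measurable_atp p).comp hT) τ ht

theorem measurableSet_tree_ok (hΦ : IsPotential Φ) (hε : ε ≠ 0) (hT : Measurable T) :
    MeasurableSet {x | ok Φ ε (T x)} :=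
  measurableSet_of_lt (P := fun _ T => ok Φ ε T) hT fun τ =>
    measurableSet_ok hΦ hε (fun p => (measurable_atp p).comp hT) τ

/-- The leaves of a measurable tree are a random set. -/
theorem RS.leaves (hT : Measurable T) : RS fun x => (T x).leaves :=
  (RS.range fun p => (measurable_atp p).comp hT).congr fun x => (range_atp (T x)).symm

/-- **The trees with leaves in a random world are a random set.** -/
theorem RS.trees {W : X → Set Src} (hW : RS W) : RS fun x => {T : CTree | T.leaves ⊆ W x} := by
  obtain ⟨ι, hι, z, I, hz, hI, h⟩ := hW
  refine ⟨LT ι, inferInstance, fun τ x => τ.tree fun i => z i x,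
    fun τ => {x | τ.labels ⊆ {i | x ∈ I i}}, fun τ => ?_, fun τ => ?_, fun x T => ?_⟩
  · induction τ with
    | leaf i => exact meas_leaf (hz i)
    | node a b iha ihb => exact meas_node iha ihb
  · have e : {x | τ.labels ⊆ {i | x ∈ I i}} = ⋂ i, ⋂ (_ : i ∈ τ.labels), I i := by
      ext x
      simp [subset_def]
    change MeasurableSet {x | τ.labels ⊆ {i | x ∈ I i}}
    rw [e]
    exact MeasurableSet.iInter fun i => MeasurableSet.iInter fun _ => hI i
  · have hW : W x = (fun i => z i x) '' {i | x ∈ I i} := by
      ext a
      rw [h x a]
      rfl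
    change T.leaves ⊆ W x ↔ _
    rw [hW]
    constructor
    · intro hT
      obtain ⟨τ, h1, h2⟩ := LT.exists_tree hT
      exact ⟨τ, h1, h2⟩
    · rintro ⟨τ, h1, rfl⟩
      rw [LT.leaves_tree]
      exact image_mono h1

theorem measurableSet_tree_leaves_subset {W : X → Set Src} (hW : RS W) (hT : Measurable T) :
    MeasurableSet {x | (T x).leaves ⊆ W x} := (RS.leaves hT).measurableSet_subset hW

theorem measurableSet_tree_mem_leaves {σ : X → Src} (hσ : Measurable σ) (hT : Measurable T) :
    MeasurableSet {x | σ x ∈ (T x).leaves} := (RS.leaves hT).measurableSet_mem_of hσ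

theorem measurableSet_tree_disjoint (hT : Measurable T) (hT' : Measurable T') :
    MeasurableSet {x | Disjoint (T x).leaves (T' x).leaves} :=
  (RS.leaves hT).measurableSet_disjoint (RS.leaves hT')

/-- **Hits.** -/
theorem SC.tree_hit (hΦ : IsPotential Φ) (hε : ε ≠ 0) (hT : Measurable T) (hT' : Measurable T') :
    SC fun x => {s | CTree.hit Φ ε (T x) (T' x) s} := by
  obtain ⟨ι, hι, z, f, g, hz, hf, hg⟩ := exists_labels' hT hT'
  refine SC.of_lt (A := fun x T => {s | CTree.hit Φ ε T (T' x) s}) hT fun τ => ?_
  refine SC.of_lt (A := fun x T' => {s | CTree.hit Φ ε (τ.tree (atp (T x))) T' s}) hT' fun υ => ?_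
  have h := SC.hit hΦ hε hz (τ.map f) (υ.map g)
  simpa only [LT.tree_map, hf, hg] using h

theorem meas_fh (hΦ : IsPotential Φ) (hε : ε ≠ 0) (hT : Measurable T)
    (hT' : Measurable T') : Measurable fun x => fh Φ ε (T x) (T' x) :=
  (SC.tree_hit hΦ hε hT hT').measurable_sInf

theorem measurableSet_tree_hit (hΦ : IsPotential Φ) (hε : ε ≠ 0) (hT : Measurable T)
    (hT' : Measurable T') {t : X → ℝ} (ht : Measurable t) :
    MeasurableSet {x | CTree.hit Φ ε (T x) (T' x) (t x)} :=
  (SC.tree_hit hΦ hε hT hT').mem ht

end Geometry

/-! ### Optional trees -/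

instance : MeasurableSpace (Option CTree) :=
  MeasurableSpace.map some (inferInstance : MeasurableSpace CTree)

theorem measurable_some : Measurable (some : CTree → Option CTree) := fun _ h => h

theorem measurableEmbedding_some : MeasurableEmbedding (some : CTree → Option CTree) :=
  ⟨Option.some_injective _, measurable_some, fun {s} hs => by
    change MeasurableSet ((some : CTree → Option CTree) ⁻¹' (some '' s))
    rwa [preimage_image_eq _ (Option.some_injective _)]⟩

theorem measurableSet_none : MeasurableSet ({none} : Set (Option CTree)) := by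
  change MeasurableSet ((some : CTree → Option CTree) ⁻¹' {none})
  convert MeasurableSet.empty using 1
  ext T
  simp

/-- Measurability of a function with values in optional trees. -/
theorem measurable_option_iff {f : X → Option CTree} : Measurable f ↔
    ∀ B : Set CTree, MeasurableSet B → MeasurableSet {x | ∃ T ∈ B, f x = some T} := by
  constructor
  · intro h B hB
    convert h (measurableEmbedding_some.measurableSet_image.2 hB) using 1
    ext x
    simp only [mem_ofPred_eq, mem_preimage, mem_image]
    exact ⟨fun ⟨T, h1, h2⟩ => ⟨T, h1, h2.symm⟩, fun ⟨T, h1, h2⟩ => ⟨T, h1, h2.symm⟩⟩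
  · intro h B hB
    have h1 := h (some ⁻¹' B) hB
    have h2 := (h univ MeasurableSet.univ).compl
    by_cases hn : none ∈ B
    · convert h1.union h2 using 1
      ext x
      rcases hx : f x with _ | T
      · simp [hx, hn]
      · simp [hx]
    · convert h1 using 1
      ext x
      rcases hx : f x with _ | T
      · simp [hx, hn]
      · simp [hx]

instance : MeasurableEq (Option CTree) := by
  constructor
  have h1 : MeasurableSet (Prod.map some some '' (diagonal CTree) :
      Set (Option CTree × Option CTree)) :=
    (measurableEmbedding_some.prodMap measurableEmbedding_some).measurableSet_image.2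
      measurableSet_diagonal
  have h2 : MeasurableSet (({none} : Set (Option CTree)) ×ˢ ({none} : Set (Option CTree))) :=
    measurableSet_none.prod measurableSet_none
  convert h1.union h2 using 1
  ext ⟨a, b⟩
  rcases a with _ | a <;> rcases b with _ | b <;> simp

end Vale.Agent.P119.MM
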