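import Vale.Agent.P119.MM.Worlds

/-!
# P119: functions of trees are measurable iff they are so on every shape (`helper228`)
-/

open MeasureTheory Filter Topology Set
open scoped ENNReal

noncomputable section

namespace Vale.Agent.P119.MM

open KU M CTree GC

variable {X : Type*} [MeasurableSpace X] {β : Type*} [MeasurableSpace β]

/-- The path to a leaf of a shape. -/
def pth : (τ : Shape) → Fin τ.card → List Bool
  | .leaf, _ => []
  | .node a b, i => Fin.addCases (motive := fun _ => List Bool) (fun j => false :: pth a j)
      (fun j => true :: pth b j) i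

theorem pth_left (a b : Shape) (i : Fin a.card) :
    pth (.node a b) (Fin.castAdd b.card i) = false :: pth a i := Fin.addCases_left i

theorem pth_right (a b : Shape) (i : Fin b.card) :
    pth (.node a b) (Fin.natAdd a.card i) = true :: pth b i := Fin.addCases_right i

/-- The leaves of a tree, for a given shape. -/
def lv (τ : Shape) (T : CTree) (i : Fin τ.card) : Src := atp T (pth τ i)

theorem measurable_lv (τ : Shape) : Measurable (lv τ) :=
  measurable_pi_iff.2 fun i => measurable_atp (pth τ i)

theorem mk_lv (T : CTree) : (shape T).mk (lv (shape T) T) = T := by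
  induction T with
  | leaf σ => rfl
  | node a b iha ihb =>
    change CTree.node ((shape a).mk fun i => atp (node a b) (pth (.node (shape a) (shape b))
      (Fin.castAdd (shape b).card i))) ((shape b).mk fun i => atp (node a b)
      (pth (.node (shape a) (shape b)) (Fin.natAdd (shape a).card i))) = _
    simp only [pth_left, pth_right]
    exact congrArg₂ CTree.node iha ihb

theorem lv_mk (τ : Shape) (z : Fin τ.card → Src) : lv τ (τ.mk z) = z := by
  have h := mk_lv (τ.mk z)
  rw [shape_mk] at h
  exact τ.mk_injective h

theorem measurableSet_shape (τ : Shape) : MeasurableSet {T : CTree | shape T = τ} :=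
  measurable_shape (MeasurableSet.of_discrete (s := {τ}))

/-- **A function on `X × CTree` is measurable iff it is on every shape.** -/
theorem measurable_prod_ctree_iff {f : X × CTree → β} : Measurable f ↔
    ∀ τ : Shape, Measurable fun p : X × (Fin τ.card → Src) => f (p.1, τ.mk p.2) := by
  constructor
  · intro h τ
    exact h.comp (measurable_fst.prodMk ((measurable_mk τ).comp measurable_snd))
  · intro h B hB
    have e : f ⁻¹' B = ⋃ τ : Shape, {p | shape p.2 = τ} ∩
        {p | f (p.1, τ.mk (lv τ p.2)) ∈ B} := by
      ext p
      simp only [mem_preimage, mem_iUnion, mem_inter_iff, mem_ofPred_eq]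
      constructor
      · intro hp
        refine ⟨shape p.2, rfl, ?_⟩
        rwa [mk_lv]
      · rintro ⟨τ, h1, h2⟩
        rw [← h1, mk_lv] at h2
        exact h2
    rw [e]
    refine MeasurableSet.iUnion fun τ => (measurable_snd (measurableSet_shape τ)).inter ?_
    exact ((h τ).comp (measurable_fst.prodMk ((measurable_lv τ).comp measurable_snd))) hB

/-- **A function on `CTree` is measurable iff it is on every shape.** -/
theorem measurable_ctree_iff_mk {f : CTree → β} : Measurable f ↔
    ∀ τ : Shape, Measurable fun z : Fin τ.card → Src => f (τ.mk z) := by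
  constructor
  · intro h τ
    exact h.comp (measurable_mk τ)
  · intro h
    have h1 : Measurable fun p : Unit × CTree => f p.2 :=
      measurable_prod_ctree_iff.2 fun τ => (h τ).comp measurable_snd
    exact h1.comp (measurable_const (a := ()) |>.prodMk measurable_id)

theorem measurableSet_ctree_iff_mk {B : Set CTree} : MeasurableSet B ↔
    ∀ τ : Shape, MeasurableSet {z : Fin τ.card → Src | τ.mk z ∈ B} := by
  constructor
  · exact fun h τ => measurable_mk τ h
  · intro h
    have e : B = ⋃ τ : Shape, {T | shape T = τ} ∩ {T | τ.mk (lv τ T) ∈ B} := by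
      ext T
      simp only [mem_iUnion, mem_inter_iff, mem_ofPred_eq]
      constructor
      · intro hp
        refine ⟨shape T, rfl, ?_⟩
        rwa [mk_lv]
      · rintro ⟨τ, h1, h2⟩
        rw [← h1, mk_lv] at h2
        exact h2
    rw [e]
    exact MeasurableSet.iUnion fun τ => (measurableSet_shape τ).inter (measurable_lv τ (h τ))

theorem measurableEmbedding_mk (τ : Shape) : MeasurableEmbedding τ.mk :=
  ⟨τ.mk_injective, measurable_mk τ, fun {s} hs => by
    have e : τ.mk '' s = {T | shape T = τ} ∩ lv τ ⁻¹' s := by
      ext T
      constructor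
      · rintro ⟨z, hz, rfl⟩
        exact ⟨shape_mk τ z, by rw [mem_preimage, lv_mk]; exact hz⟩
      · rintro ⟨h1, h2⟩
        refine ⟨lv τ T, h2, ?_⟩
        have h1' : shape T = τ := h1
        subst h1'
        exact mk_lv T
    rw [e]
    exact (measurableSet_shape τ).inter (measurable_lv τ hs)⟩

theorem measurableEmbedding_leaf : MeasurableEmbedding CTree.leaf :=
  ⟨fun _ _ h => CTree.leaf.inj h, measurable_leaf, fun {s} hs => by
    have e : CTree.leaf '' s = {T | shape T = .leaf} ∩ (fun T => atp T []) ⁻¹' s := by
      ext T
      constructor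
      · rintro ⟨σ, hσ, rfl⟩
        exact ⟨rfl, hσ⟩
      · rintro ⟨h1, h2⟩
        cases T with
        | leaf σ => exact ⟨σ, h2, rfl⟩
        | node a b => exact absurd h1 (by rintro ⟨⟩)
    rw [e]
    exact (measurableSet_shape _).inter (measurable_atp [] hs)⟩

/-- The left subtree (the tree itself for a leaf). -/
def lft : CTree → CTree
  | .leaf σ => .leaf σ
  | .node a _ => a

/-- The right subtree (the tree itself for a leaf). -/
def rgt : CTree → CTree
  | .leaf σ => .leaf σ
  | .node _ b => b

theorem measurable_lft : Measurable lft := by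
  rw [measurable_ctree_iff_mk]
  rintro (_ | ⟨a, b⟩)
  · exact measurable_leaf.comp (measurable_pi_apply _)
  · exact (measurable_mk a).comp (measurable_pi_iff.2 fun i => measurable_pi_apply _)

theorem measurable_rgt : Measurable rgt := by
  rw [measurable_ctree_iff_mk]
  rintro (_ | ⟨a, b⟩)
  · exact measurable_leaf.comp (measurable_pi_apply _)
  · exact (measurable_mk b).comp (measurable_pi_iff.2 fun i => measurable_pi_apply _)

theorem measurableEmbedding_node :
    MeasurableEmbedding (fun p : CTree × CTree => CTree.node p.1 p.2) :=
  ⟨fun p q h => by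
    obtain ⟨h1, h2⟩ := CTree.node.inj h
    exact Prod.ext h1 h2, meas_node measurable_fst measurable_snd, fun {s} hs => by
    have e : (fun p : CTree × CTree => CTree.node p.1 p.2) '' s =
        {T | shape T = .leaf}ᶜ ∩ (fun T => (lft T, rgt T)) ⁻¹' s := by
      ext T
      constructor
      · rintro ⟨p, hp, rfl⟩
        exact ⟨by rintro ⟨⟩, hp⟩
      · rintro ⟨h1, h2⟩
        cases T with
        | leaf σ => exact absurd rfl h1
        | node a b => exact ⟨(a, b), h2, rfl⟩
    rw [e]
    exact (measurableSet_shape _).compl.inter ((measurable_lft.prodMk measurable_rgt) hs)⟩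

end Vale.Agent.P119.MM
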