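import Vale.Agent.P119.MM.Time

/-!
# P119: time sets, extended real times and monotone sets (`helper755`)
-/

open MeasureTheory Filter Topology Set
open scoped ENNReal

noncomputable section

namespace Vale.Agent.P119.MM

variable {X Y : Type*} [MeasurableSpace X] [MeasurableSpace Y] {A B : X → Set ℝ}

theorem SC.lt_e {D : X → EReal} (hD : Measurable D) : SC fun x => {s : ℝ | (s : EReal) < D x} := by
  have h1 : MeasurableSet {x | D x = ⊤} := hD (measurableSet_singleton _)
  have h2 : MeasurableSet {x | D x ≠ ⊤ ∧ D x ≠ ⊥} := by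
    exact h1.compl.inter (hD (measurableSet_singleton (⊥ : EReal))).compl
  refine ((SC.cond h1).or ((SC.cond h2).and (SC.lt hD.ereal_toReal))).congr fun x s => ?_
  simp only [mem_ofPred_eq]
  generalize D x = d
  induction d with
  | bot => simp
  | coe c => simp
  | top => simp

theorem SC.le_e {D : X → EReal} (hD : Measurable D) : SC fun x => {s : ℝ | (s : EReal) ≤ D x} := by
  have h1 : MeasurableSet {x | D x = ⊤} := hD (measurableSet_singleton _)
  have h2 : MeasurableSet {x | D x ≠ ⊤ ∧ D x ≠ ⊥} := by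
    exact h1.compl.inter (hD (measurableSet_singleton (⊥ : EReal))).compl
  refine ((SC.cond h1).or ((SC.cond h2).and (SC.le hD.ereal_toReal))).congr fun x s => ?_
  simp only [mem_ofPred_eq]
  generalize D x = d
  induction d with
  | bot => simp
  | coe c => simp
  | top => simp

theorem SC.gt_e {D : X → EReal} (hD : Measurable D) : SC fun x => {s : ℝ | D x < (s : EReal)} := by
  have h1 : MeasurableSet {x | D x = ⊥} := hD (measurableSet_singleton _)
  have h2 : MeasurableSet {x | D x ≠ ⊥ ∧ D x ≠ ⊤} := by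
    exact h1.compl.inter (hD (measurableSet_singleton (⊤ : EReal))).compl
  refine ((SC.cond h1).or ((SC.cond h2).and (SC.gt hD.ereal_toReal))).congr fun x s => ?_
  simp only [mem_ofPred_eq]
  generalize D x = d
  induction d with
  | bot => simp
  | coe c => simp
  | top => simp

theorem SC.ge_e {D : X → EReal} (hD : Measurable D) : SC fun x => {s : ℝ | D x ≤ (s : EReal)} := by
  have h1 : MeasurableSet {x | D x = ⊥} := hD (measurableSet_singleton _)
  have h2 : MeasurableSet {x | D x ≠ ⊥ ∧ D x ≠ ⊤} := by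
    exact h1.compl.inter (hD (measurableSet_singleton (⊤ : EReal))).compl
  refine ((SC.cond h1).or ((SC.cond h2).and (SC.ge hD.ereal_toReal))).congr fun x s => ?_
  simp only [mem_ofPred_eq]
  generalize D x = d
  induction d with
  | bot => simp
  | coe c => simp
  | top => simp

/-- The graph of a time. -/
theorem SC.eq_e {D : X → EReal} (hD : Measurable D) : SC fun x => {s : ℝ | (s : EReal) = D x} :=
  ((SC.le_e hD).and (SC.ge_e hD)).congr fun x s => by
    simp only [mem_ofPred_eq]; exact le_antisymm_iff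

/-! ### Monotone sets -/

/-- Upward closed sets which are measurable at measurable times. -/
theorem SC.of_up {U : X → Set ℝ} (hup : ∀ x s t, s ∈ U x → s ≤ t → t ∈ U x)
    (hm : ∀ t : X → ℝ, Measurable t → MeasurableSet {x | t x ∈ U x}) : SC U := by
  have hD : Measurable fun x => hT (U x) := by
    refine measurable_of_Iio fun c => ?_
    change MeasurableSet {x | hT (U x) < c}
    have e : {x | hT (U x) < c} = ⋃ q : ℚ, {x | ((q : ℝ) : EReal) < c} ∩ {x | (q : ℝ) ∈ U x} := by
      ext x
      simp only [mem_ofPred_eq, mem_iUnion, mem_inter_iff, hT_lt_iff]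
      constructor
      · rintro ⟨s, hs, hsc⟩
        obtain ⟨q, hq1, hq2⟩ := EReal.lt_iff_exists_rat_btwn.1 hsc
        exact ⟨q, hq2, hup x s q hs (EReal.coe_lt_coe_iff.1 hq1).le⟩
      · rintro ⟨q, hq1, hq2⟩
        exact ⟨q, hq2, hq1⟩
    rw [e]
    refine MeasurableSet.iUnion fun q => MeasurableSet.inter ?_ (hm _ measurable_const)
    exact MeasurableSet.const _
  have h2 : MeasurableSet {x | (hT (U x)).toReal ∈ U x} := hm _ hD.ereal_toReal
  refine ((SC.gt_e hD).or ((SC.cond h2).and (SC.eq_time hD.ereal_toReal))).congr fun x s => ?_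
  simp only [mem_ofPred_eq]
  constructor
  · intro hs
    have h3 : hT (U x) ≤ s := by
      unfold hT
      exact iInf₂_le s hs
    rcases h3.lt_or_eq with h4 | h4
    · exact Or.inl h4
    · right
      rw [h4, EReal.toReal_coe]
      exact ⟨hs, rfl⟩
  · rintro (h | ⟨h3, h4⟩)
    · obtain ⟨u, hu, hus⟩ := hT_lt_iff.1 h
      exact hup x u s hu (EReal.coe_lt_coe_iff.1 hus).le
    · rw [h4]; exact h3

theorem SC.neg (h : SC A) : SC fun x => {s | -s ∈ A x} := by
  obtain ⟨F, h1, h2, h3⟩ := h
  exact ⟨fun n x s => F n x (-s), fun n s => h1 n (-s), fun n x => (h2 n x).comp continuous_neg,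
    fun x s => h3 x (-s)⟩

/-- Downward closed sets which are measurable at measurable times. -/
theorem SC.of_down {U : X → Set ℝ} (hdn : ∀ x s t, s ∈ U x → t ≤ s → t ∈ U x)
    (hm : ∀ t : X → ℝ, Measurable t → MeasurableSet {x | t x ∈ U x}) : SC U := by
  have h := (SC.of_up (U := fun x => {s | -s ∈ U x})
    (fun x s t hs hst => hdn x (-s) (-t) hs (neg_le_neg hst)) (fun t ht => hm _ ht.neg)).neg
  refine h.congr fun x s => ?_
  simp only [mem_ofPred_eq, neg_neg]

theorem coe_le_hT_iff {A : Set ℝ} {t : ℝ} : (t : EReal) ≤ hT A ↔ ∀ s, s < t → s ∉ A := by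
  rw [← not_lt, hT_lt_iff]
  constructor
  · intro h s hs hsA
    exact h ⟨s, hsA, EReal.coe_lt_coe_iff.2 hs⟩
  · rintro h ⟨s, hsA, hs⟩
    exact h s (EReal.coe_lt_coe_iff.1 hs) hsA

/-- If the first time is attained. -/
theorem coe_lt_hT_iff {A : Set ℝ} (hA : A.Nonempty → ∃ m ∈ A, ∀ s ∈ A, m ≤ s) {t : ℝ} :
    (t : EReal) < hT A ↔ ∀ s, s ≤ t → s ∉ A := by
  constructor
  · intro h s hs hsA
    have h1 : hT A ≤ s := by
      unfold hT
      exact iInf₂_le s hsA
    exact absurd (h.trans_le (h1.trans (EReal.coe_le_coe_iff.2 hs))) (lt_irrefl _)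
  · intro h
    rcases A.eq_empty_or_nonempty with h1 | h1
    · subst h1
      simp [hT]
    · obtain ⟨m, hm, hm'⟩ := hA h1
      have h2 : t < m := by
        by_contra hcon
        exact h m (not_lt.1 hcon) hm
      refine (EReal.coe_lt_coe_iff.2 h2).trans_le ?_
      unfold hT
      exact le_iInf₂ fun s hs => EReal.coe_le_coe_iff.2 (hm' s hs)

end Vale.Agent.P119.MM
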