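import Vale.Agent.P119.MM.LTree
import Vale.Agent.P119.MM.Time2

/-!
# P119: measurability of survival and of the statuses (`helper755`)

For `z : X → ι → Src` and the random index set `I` (world `wd z I x = z x '' I x`), `τ` a label
tree: `alive`, `live`, `lives`, the killing time `kt`, `stat`, and the corresponding time sets.
-/

open MeasureTheory Filter Topology Set
open scoped ENNReal

noncomputable section

namespace Vale.Agent.P119.MM

open KU M CTree

variable {Φ : E3 → ℝ} {ε : ℝ} {L : ℕ} {W : Set Src}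

/-! ### The killing time -/

/-- The times at which `T` is hit by an alive tree. -/
def kill (Φ : E3 → ℝ) (ε : ℝ) (L : ℕ) (W : Set Src) (T : CTree) : Set ℝ :=
  {s | ∃ T', CTree.hit Φ ε T T' s ∧ alive Φ ε L W T' s}

/-- The first time at which `T` is hit by an alive tree. -/
def kt (Φ : E3 → ℝ) (ε : ℝ) (L : ℕ) (W : Set Src) (T : CTree) : EReal := hT (kill Φ ε L W T)

theorem fh_mem_kill (hΦ : IsPotential Φ) (hε : 0 < ε) {T T' : CTree} (hT : ok Φ ε T) {s : ℝ}
    (h : CTree.hit Φ ε T T' s) (ha : alive Φ ε L W T' s) :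
    alive Φ ε L W T' (fh Φ ε T T') :=
  alive_anti ha (fh_le hΦ hε hT h) (hit_ext_le (fh_hit hΦ hε hT h))

theorem kill_min (hΦ : IsPotential Φ) (hε : 0 < ε) (hW : W.Finite) {T : CTree} (hT : ok Φ ε T)
    (hne : (kill Φ ε L W T).Nonempty) : ∃ m ∈ kill Φ ε L W T, ∀ s ∈ kill Φ ε L W T, m ≤ s := by
  set B : Set CTree := {T' | T'.leaves ⊆ W ∧ T'.depth ≤ L ∧ (∃ s, CTree.hit Φ ε T T' s) ∧
    alive Φ ε L W T' (fh Φ ε T T')} with hB
  have hBf : B.Finite := (finite_depth hW L).subset fun T' h => ⟨h.1, h.2.1⟩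
  have key : ∀ s ∈ kill Φ ε L W T, ∃ T' ∈ B, fh Φ ε T T' ≤ s := by
    rintro s ⟨T', h1, h2⟩
    exact ⟨T', ⟨(alive_pre h2).sub, (alive_pre h2).depth, ⟨s, h1⟩, fh_mem_kill hΦ hε hT h1 h2⟩,
      fh_le hΦ hε hT h1⟩
  obtain ⟨s, hs⟩ := hne
  obtain ⟨T₀, hT₀, -⟩ := key s hs
  obtain ⟨T', hT', hmin⟩ := hBf.exists_minimalFor (fun T' => fh Φ ε T T') _ ⟨T₀, hT₀⟩
  refine ⟨fh Φ ε T T', ⟨T', fh_hit hΦ hε hT hT'.2.2.1.choose_spec, hT'.2.2.2⟩, fun r hr => ?_⟩
  obtain ⟨T'', h1, h2⟩ := key r hr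
  rcases le_total (fh Φ ε T T') (fh Φ ε T T'') with h3 | h3
  · exact h3.trans h2
  · exact (hmin h1 h3).trans h2

theorem coe_lt_kt_iff (hΦ : IsPotential Φ) (hε : 0 < ε) (hW : W.Finite) {T : CTree}
    (hT : ok Φ ε T) {t : ℝ} : (t : EReal) < kt Φ ε L W T ↔
      ∀ T' s, s ≤ t → CTree.hit Φ ε T T' s → ¬alive Φ ε L W T' s := by
  unfold kt
  rw [coe_lt_hT_iff (kill_min hΦ hε hW hT)]
  constructor
  · intro h T' s hs hh ha
    exact h s hs ⟨T', hh, ha⟩
  · rintro h s hs ⟨T', hh, ha⟩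
    exact h T' s hs hh ha

theorem coe_le_kt_iff {T : CTree} {t : ℝ} : (t : EReal) ≤ kt Φ ε L W T ↔
      ∀ T' s, s < t → CTree.hit Φ ε T T' s → ¬alive Φ ε L W T' s := by
  unfold kt
  rw [coe_le_hT_iff]
  constructor
  · intro h T' s hs hh ha
    exact h s hs ⟨T', hh, ha⟩
  · rintro h s hs ⟨T', hh, ha⟩
    exact h T' s hs hh ha

/-- The conditions which do not depend on the time. -/
def base (Φ : E3 → ℝ) (ε : ℝ) (L : ℕ) (W : Set Src) (T : CTree) : Prop :=
  T.leaves ⊆ W ∧ T.ok Φ ε ∧ T.depth ≤ L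

theorem lives_iff_kt (hΦ : IsPotential Φ) (hε : 0 < ε) (hW : W.Finite) {T : CTree} {t : ℝ} :
    lives Φ ε L W T t ↔ base Φ ε L W T ∧ T.sig Φ ε ≤ t ∧ (t : EReal) < kt Φ ε L W T := by
  constructor
  · intro h
    exact ⟨⟨h.sub, h.ok, h.depth⟩, h.sig_le, (coe_lt_kt_iff hΦ hε hW h.ok).2 h.nohit⟩
  · rintro ⟨h1, h2, h3⟩
    exact ⟨h1.1, h1.2.1, h1.2.2, h2, (coe_lt_kt_iff hΦ hε hW h1.2.1).1 h3⟩

theorem live_iff_kt {T : CTree} {t : ℝ} :
    live Φ ε L W T t ↔ base Φ ε L W T ∧ T.sig Φ ε ≤ t ∧ (t : EReal) ≤ kt Φ ε L W T := by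
  constructor
  · intro h
    exact ⟨⟨h.sub, h.ok, h.depth⟩, h.sig_le, coe_le_kt_iff.2 h.nohit⟩
  · rintro ⟨h1, h2, h3⟩
    exact ⟨h1.1, h1.2.1, h1.2.2, h2, coe_le_kt_iff.1 h3⟩

theorem alive_iff_kt (hΦ : IsPotential Φ) (hε : 0 < ε) (hW : W.Finite) {T : CTree} {t : ℝ} :
    alive Φ ε L W T t ↔ base Φ ε L W T ∧ T.ext Φ ε ≤ t ∧ (t : EReal) ≤ kt Φ ε L W T := by
  rw [alive_iff hΦ hε hW]
  constructor
  · rintro ⟨h, h'⟩
    exact ⟨⟨h.sub, h.ok, h.depth⟩, h.ext_le, coe_le_kt_iff.2 h'⟩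
  · rintro ⟨h1, h2, h3⟩
    exact ⟨⟨h1.1, h1.2.1, h1.2.2, h2⟩, coe_le_kt_iff.1 h3⟩

/-! ### Measurability -/

variable {ι : Type} {X : Type*} [MeasurableSpace X] {z : X → ι → Src} {I J : X → Set ι}

/-- Statements about all trees of the world are statements about label trees. -/
theorem forall_tree_iff {x : X} {P : CTree → Prop}
    (hP : ∀ T, ¬T.leaves ⊆ wd z I x → P T) :
    (∀ T, P T) ↔ ∀ υ : LT ι, P (υ.tree (z x)) := by
  refine ⟨fun h υ => h _, fun h T => ?_⟩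
  by_cases hT : T.leaves ⊆ wd z I x
  · obtain ⟨υ, -, rfl⟩ := LT.exists_tree hT
    exact h υ
  · exact hP T hT

theorem exists_tree_iff {x : X} {P : CTree → Prop} (hP : ∀ T, P T → T.leaves ⊆ wd z I x) :
    (∃ T, P T) ↔ ∃ υ : LT ι, P (υ.tree (z x)) := by
  refine ⟨fun ⟨T, hT⟩ => ?_, fun ⟨υ, h⟩ => ⟨_, h⟩⟩
  obtain ⟨υ, -, rfl⟩ := LT.exists_tree (hP T hT)
  exact ⟨υ, hT⟩

section

variable [Countable ι]

theorem measurableSet_pre (hΦ : IsPotential Φ) (hε : 0 < ε) (hz : ∀ i, Measurable fun x => z x i)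
    (hI : ∀ i, MeasurableSet {x | i ∈ I x}) (τ : LT ι) {t : X → ℝ} (ht : Measurable t) :
    MeasurableSet {x | pre Φ ε L (wd z I x) (τ.tree (z x)) (t x)} := by
  have e : {x | pre Φ ε L (wd z I x) (τ.tree (z x)) (t x)} =
      {x | (τ.tree (z x)).leaves ⊆ wd z I x} ∩ ({x | ok Φ ε (τ.tree (z x))} ∩
        ({x | (τ.tree (z x)).depth ≤ L} ∩ {x | ext Φ ε (τ.tree (z x)) ≤ t x})) := by
    ext x
    exact ⟨fun h => ⟨h.sub, h.ok, h.depth, h.ext_le⟩, fun h => ⟨h.1, h.2.1, h.2.2.1, h.2.2.2⟩⟩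
  rw [e]
  exact (measurableSet_leaves_subset hz hI τ).inter ((measurableSet_ok hΦ hε.ne' hz τ).inter
    ((measurable_depth hz τ (measurableSet_Iic (a := L))).inter
      (measurableSet_le (measurable_ext hΦ hε.ne' hz τ) ht)))

theorem measurableSet_base (hΦ : IsPotential Φ) (hε : 0 < ε) (hz : ∀ i, Measurable fun x => z x i)
    (hI : ∀ i, MeasurableSet {x | i ∈ I x}) (τ : LT ι) :
    MeasurableSet {x | base Φ ε L (wd z I x) (τ.tree (z x))} :=
  (measurableSet_leaves_subset hz hI τ).inter ((measurableSet_ok hΦ hε.ne' hz τ).inter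
    (measurable_depth hz τ (measurableSet_Iic (a := L))))

theorem measurableSet_aliveN (hΦ : IsPotential Φ) (hε : 0 < ε)
    (hz : ∀ i, Measurable fun x => z x i) (hI : ∀ i, MeasurableSet {x | i ∈ I x}) (n : ℕ) :
    ∀ (τ : LT ι) {t : X → ℝ}, Measurable t →
      MeasurableSet {x | aliveN Φ ε L n (wd z I x) (τ.tree (z x)) (t x)} := by
  induction n with
  | zero => exact fun τ t ht => measurableSet_pre hΦ hε hz hI τ ht
  | succ n ih =>
    intro τ t ht
    have e : {x | aliveN Φ ε L (n + 1) (wd z I x) (τ.tree (z x)) (t x)} =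
        {x | pre Φ ε L (wd z I x) (τ.tree (z x)) (t x)} ∩ ⋂ υ : LT ι,
          ({x | ∃ s, s < t x ∧ CTree.hit Φ ε (τ.tree (z x)) (υ.tree (z x)) s}ᶜ ∪
            {x | aliveN Φ ε L n (wd z I x) (υ.tree (z x))
              (fh Φ ε (τ.tree (z x)) (υ.tree (z x)))}ᶜ) := by
      ext x
      simp only [mem_ofPred_eq, mem_inter_iff, mem_iInter, mem_union, mem_compl_iff]
      rw [aliveN_succ_iff_fh hΦ hε]
      refine and_congr_right fun _ => ?_
      rw [forall_tree_iff (z := z) (I := I) (x := x) (P := fun T' =>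
        (∃ s, s < t x ∧ CTree.hit Φ ε (τ.tree (z x)) T' s) →
          ¬aliveN Φ ε L n (wd z I x) T' (fh Φ ε (τ.tree (z x)) T'))
        (fun T hT _ ha => hT (aliveN_pre ha).sub)]
      exact forall_congr' fun υ => imp_iff_not_or
    rw [e]
    exact (measurableSet_pre hΦ hε hz hI τ ht).inter (MeasurableSet.iInter fun υ =>
      ((SC.hit hΦ hε.ne' hz τ υ).exists_lt ht).compl.union
        (ih υ (measurable_fh hΦ hε.ne' hz τ υ)).compl)

/-- **Survival of a tree at a measurable time.** -/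
theorem measurableSet_alive (hΦ : IsPotential Φ) (hε : 0 < ε)
    (hz : ∀ i, Measurable fun x => z x i) (hI : ∀ i, MeasurableSet {x | i ∈ I x}) (τ : LT ι)
    {t : X → ℝ} (ht : Measurable t) :
    MeasurableSet {x | alive Φ ε L (wd z I x) (τ.tree (z x)) (t x)} := by
  have e : {x | alive Φ ε L (wd z I x) (τ.tree (z x)) (t x)} =
      ⋃ n : ℕ, ⋂ m : ℕ, ⋂ _ : n ≤ m,
        {x | aliveN Φ ε L m (wd z I x) (τ.tree (z x)) (t x)} := by
    ext x
    simp only [mem_ofPred_eq, mem_iUnion, mem_iInter]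
    rfl
  rw [e]
  exact MeasurableSet.iUnion fun n => MeasurableSet.iInter fun m => MeasurableSet.iInter fun _ =>
    measurableSet_aliveN hΦ hε hz hI m τ ht

open Classical in
/-- The killing time, `⊤` if the tree is not `ok`. -/
def ktm (Φ : E3 → ℝ) (ε : ℝ) (L : ℕ) (W : Set Src) (T : CTree) : EReal :=
  if ok Φ ε T then kt Φ ε L W T else ⊤

theorem measurable_ktm (hΦ : IsPotential Φ) (hε : 0 < ε)
    (hz : ∀ i, Measurable fun x => z x i) (hI : ∀ i, MeasurableSet {x | i ∈ I x}) (τ : LT ι) :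
    Measurable fun x => ktm Φ ε L (wd z I x) (τ.tree (z x)) := by
  refine measurable_of_Iio fun c => ?_
  change MeasurableSet {x | ktm Φ ε L (wd z I x) (τ.tree (z x)) < c}
  have hok := measurableSet_ok hΦ hε.ne' hz τ (ε := ε) (Φ := Φ)
  have hal : ∀ υ : LT ι, MeasurableSet {x | alive Φ ε L (wd z I x) (υ.tree (z x))
      (fh Φ ε (τ.tree (z x)) (υ.tree (z x)))} := fun υ =>
    measurableSet_alive hΦ hε hz hI υ (measurable_fh hΦ hε.ne' hz τ υ)
  have key : ∀ (S : Set ℝ), (∀ s r, s ∈ S → r ≤ s → r ∈ S) →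
      (∀ υ : LT ι, MeasurableSet {x | ∃ s, s ∈ S ∧
        CTree.hit Φ ε (τ.tree (z x)) (υ.tree (z x)) s}) →
      MeasurableSet {x | ok Φ ε (τ.tree (z x)) ∧
        ∃ s ∈ kill Φ ε L (wd z I x) (τ.tree (z x)), s ∈ S} := by
    intro S hS hm
    have e : {x | ok Φ ε (τ.tree (z x)) ∧
        ∃ s ∈ kill Φ ε L (wd z I x) (τ.tree (z x)), s ∈ S} =
        {x | ok Φ ε (τ.tree (z x))} ∩ ⋃ υ : LT ι,
          ({x | ∃ s, s ∈ S ∧ CTree.hit Φ ε (τ.tree (z x)) (υ.tree (z x)) s} ∩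
          {x | alive Φ ε L (wd z I x) (υ.tree (z x))
            (fh Φ ε (τ.tree (z x)) (υ.tree (z x)))}) := by
      ext x
      simp only [mem_ofPred_eq, mem_inter_iff, mem_iUnion]
      refine and_congr_right fun hox => ?_
      constructor
      · rintro ⟨s, ⟨T', h1, h2⟩, h3⟩
        obtain ⟨υ, -, rfl⟩ := LT.exists_tree (alive_pre h2).sub
        exact ⟨υ, ⟨s, h3, h1⟩, fh_mem_kill hΦ hε hox h1 h2⟩
      · rintro ⟨υ, ⟨s, h3, h1⟩, h2⟩
        exact ⟨_, ⟨_, fh_hit hΦ hε hox h1, h2⟩, hS _ _ h3 (fh_le hΦ hε hox h1)⟩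
    rw [e]
    exact hok.inter (MeasurableSet.iUnion fun υ => (hm υ).inter (hal υ))
  induction c with
  | bot => simp
  | coe c =>
    refine (key (Iio c) (fun s r hs hr => hr.trans_lt hs) fun υ =>
      (SC.hit hΦ hε.ne' hz τ υ).exists_lt (u := fun _ => c) measurable_const).congr ?_
    ext x
    simp only [mem_ofPred_eq, ktm, kt, mem_Iio]
    split_ifs with h
    · rw [hT_lt_iff]
      simp only [h, true_and, EReal.coe_lt_coe_iff]
    · simp [h]
  | top =>
    refine (key univ (fun _ _ _ _ => mem_univ _) fun υ => ?_).congr ?_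
    · simp only [mem_univ, true_and]
      exact (SC.hit hΦ hε.ne' hz τ υ).nonempty
    · ext x
      simp only [mem_ofPred_eq, ktm, kt, mem_univ, and_true]
      split_ifs with h
      · rw [hT_lt_iff]
        simp only [h, true_and, EReal.coe_lt_top, and_true]
      · simp [h]

theorem base_iff_ktm {T : CTree} {P : EReal → Prop} :
    base Φ ε L W T ∧ P (kt Φ ε L W T) ↔ base Φ ε L W T ∧ P (ktm Φ ε L W T) := by
  refine and_congr_right fun h => ?_
  unfold ktm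
  rw [if_pos h.2.1]

/-! ### Time sets -/

theorem SC.alive (hΦ : IsPotential Φ) (hε : 0 < ε) (hz : ∀ i, Measurable fun x => z x i)
    (hI : ∀ i, MeasurableSet {x | i ∈ I x}) (hW : ∀ x, (wd z I x).Finite) (τ : LT ι) :
    SC fun x => {s | M.alive Φ ε L (wd z I x) (τ.tree (z x)) s} := by
  refine ((SC.cond (measurableSet_base hΦ hε hz hI τ (L := L))).and
    ((SC.ge (measurable_ext hΦ hε.ne' hz τ)).and
      (SC.le_e (measurable_ktm hΦ hε hz hI τ (L := L))))).congr fun x s => ?_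
  simp only [mem_ofPred_eq]
  rw [alive_iff_kt hΦ hε (hW x)]
  exact base_iff_ktm (P := fun k => ext Φ ε (τ.tree (z x)) ≤ s ∧ (s : EReal) ≤ k)

theorem SC.live (hΦ : IsPotential Φ) (hε : 0 < ε) (hz : ∀ i, Measurable fun x => z x i)
    (hI : ∀ i, MeasurableSet {x | i ∈ I x}) (τ : LT ι) :
    SC fun x => {s | M.live Φ ε L (wd z I x) (τ.tree (z x)) s} := by
  refine ((SC.cond (measurableSet_base hΦ hε hz hI τ (L := L))).and
    ((SC.ge (measurable_sig hΦ hε.ne' hz τ)).and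
      (SC.le_e (measurable_ktm hΦ hε hz hI τ (L := L))))).congr fun x s => ?_
  simp only [mem_ofPred_eq]
  rw [live_iff_kt]
  exact base_iff_ktm (P := fun k => sig Φ ε (τ.tree (z x)) ≤ s ∧ (s : EReal) ≤ k)

theorem SC.lives (hΦ : IsPotential Φ) (hε : 0 < ε) (hz : ∀ i, Measurable fun x => z x i)
    (hI : ∀ i, MeasurableSet {x | i ∈ I x}) (hW : ∀ x, (wd z I x).Finite) (τ : LT ι) :
    SC fun x => {s | M.lives Φ ε L (wd z I x) (τ.tree (z x)) s} := by
  refine ((SC.cond (measurableSet_base hΦ hε hz hI τ (L := L))).and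
    ((SC.ge (measurable_sig hΦ hε.ne' hz τ)).and
      (SC.lt_e (measurable_ktm hΦ hε hz hI τ (L := L))))).congr fun x s => ?_
  simp only [mem_ofPred_eq]
  rw [lives_iff_kt hΦ hε (hW x)]
  exact base_iff_ktm (P := fun k => sig Φ ε (τ.tree (z x)) ≤ s ∧ (s : EReal) < k)

theorem SC.not_alive (hΦ : IsPotential Φ) (hε : 0 < ε) (hz : ∀ i, Measurable fun x => z x i)
    (hI : ∀ i, MeasurableSet {x | i ∈ I x}) (hW : ∀ x, (wd z I x).Finite) (τ : LT ι) :
    SC fun x => {s | ¬M.alive Φ ε L (wd z I x) (τ.tree (z x)) s} := by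
  refine ((SC.cond (measurableSet_base hΦ hε hz hI τ (L := L)).compl).or
    ((SC.lt (measurable_ext hΦ hε.ne' hz τ)).or
      (SC.gt_e (measurable_ktm hΦ hε hz hI τ (L := L))))).congr fun x s => ?_
  simp only [mem_ofPred_eq, mem_compl_iff]
  rw [alive_iff_kt hΦ hε (hW x),
    base_iff_ktm (P := fun k => ext Φ ε (τ.tree (z x)) ≤ s ∧ (s : EReal) ≤ k),
    not_and_or, not_and_or, not_le, not_le]

theorem SC.not_lives (hΦ : IsPotential Φ) (hε : 0 < ε) (hz : ∀ i, Measurable fun x => z x i)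
    (hI : ∀ i, MeasurableSet {x | i ∈ I x}) (hW : ∀ x, (wd z I x).Finite) (τ : LT ι) :
    SC fun x => {s | ¬M.lives Φ ε L (wd z I x) (τ.tree (z x)) s} := by
  refine ((SC.cond (measurableSet_base hΦ hε hz hI τ (L := L)).compl).or
    ((SC.lt (measurable_sig hΦ hε.ne' hz τ)).or
      (SC.ge_e (measurable_ktm hΦ hε hz hI τ (L := L))))).congr fun x s => ?_
  simp only [mem_ofPred_eq, mem_compl_iff]
  rw [lives_iff_kt hΦ hε (hW x),
    base_iff_ktm (P := fun k => sig Φ ε (τ.tree (z x)) ≤ s ∧ (s : EReal) < k),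
    not_and_or, not_and_or, not_le, not_lt]

/-! ### Statuses -/

theorem root_tree (x : X) (τ : LT ι) : ∃ i, ∀ x, (τ.tree (z x)).root = z x i := by
  induction τ with
  | leaf i => exact ⟨i, fun x => rfl⟩
  | node a b iha _ => exact iha

theorem measurable_root (hz : ∀ i, Measurable fun x => z x i) (τ : LT ι) :
    Measurable fun x => (τ.tree (z x)).root := by
  induction τ with
  | leaf i => exact hz i
  | node a b iha _ => exact iha

theorem SC.stat_some (hΦ : IsPotential Φ) (hε : 0 < ε) (hz : ∀ i, Measurable fun x => z x i)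
    (hI : ∀ i, MeasurableSet {x | i ∈ I x}) (hW : ∀ x, (wd z I x).Finite) {f : X → Src}
    (hf : Measurable f) (τ : LT ι) :
    SC fun x => {s | stat Φ ε L (wd z I x) (f x) s = some (τ.tree (z x))} := by
  refine ((SC.cond (measurableSet_src_eq (measurable_root hz τ) hf)).and
    (SC.lives hΦ hε hz hI hW τ (L := L))).congr fun x s => ?_
  simp only [mem_ofPred_eq]
  exact stat_eq_some_iff hΦ hε (hW x)

theorem SC.stat_ne_some (hΦ : IsPotential Φ) (hε : 0 < ε) (hz : ∀ i, Measurable fun x => z x i)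
    (hI : ∀ i, MeasurableSet {x | i ∈ I x}) (hW : ∀ x, (wd z I x).Finite) {f : X → Src}
    (hf : Measurable f) (τ : LT ι) :
    SC fun x => {s | stat Φ ε L (wd z I x) (f x) s ≠ some (τ.tree (z x))} := by
  refine ((SC.cond (measurableSet_src_eq (measurable_root hz τ) hf).compl).or
    (SC.not_lives hΦ hε hz hI hW τ (L := L))).congr fun x s => ?_
  simp only [mem_ofPred_eq, mem_compl_iff, ne_eq]
  rw [stat_eq_some_iff hΦ hε (hW x), not_and_or]

theorem stat_ne_none_iff (hΦ : IsPotential Φ) (hε : 0 < ε) (hW : ∀ x, (wd z I x).Finite)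
    {f : X → Src} {x : X} {s : ℝ} : stat Φ ε L (wd z I x) (f x) s ≠ none ↔
      ∃ υ : LT ι, stat Φ ε L (wd z I x) (f x) s = some (υ.tree (z x)) := by
  constructor
  · intro h
    obtain ⟨T, hT⟩ := Option.ne_none_iff_exists'.1 h
    have h1 := (stat_eq_some_iff hΦ hε (hW x)).1 hT
    obtain ⟨υ, -, rfl⟩ := LT.exists_tree h1.2.sub
    exact ⟨υ, hT⟩
  · rintro ⟨υ, h⟩
    rw [h]
    simp

theorem SC.stat_ne_none (hΦ : IsPotential Φ) (hε : 0 < ε) (hz : ∀ i, Measurable fun x => z x i)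
    (hI : ∀ i, MeasurableSet {x | i ∈ I x}) (hW : ∀ x, (wd z I x).Finite) {f : X → Src}
    (hf : Measurable f) :
    SC fun x => {s | stat Φ ε L (wd z I x) (f x) s ≠ none} :=
  (SC.iUnion fun υ => SC.stat_some hΦ hε hz hI hW hf υ (L := L)).congr fun x s => by
    simp only [mem_ofPred_eq]
    exact stat_ne_none_iff hΦ hε hW

theorem stat_none_of_lt (hΦ : IsPotential Φ) (hε : 0 < ε) (hW : W.Finite) {a : Src} {s : ℝ}
    (h : s < a.1) : stat Φ ε L W a s = none := by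
  by_contra hcon
  obtain ⟨T, hT⟩ := Option.ne_none_iff_exists'.1 hcon
  have h1 := (stat_eq_some_iff hΦ hε hW).1 hT
  have h2 := root_birth_le_sig hΦ hε h1.2.ok
  rw [h1.1] at h2
  exact absurd (h2.trans h1.2.sig_le) (not_le.2 h)

theorem SC.stat_none (hΦ : IsPotential Φ) (hε : 0 < ε) (hz : ∀ i, Measurable fun x => z x i)
    (hI : ∀ i, MeasurableSet {x | i ∈ I x}) (hW : ∀ x, (wd z I x).Finite) {f : X → Src}
    (hf : Measurable f) :
    SC fun x => {s | stat Φ ε L (wd z I x) (f x) s = none} := by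
  have h1 : SC fun x => {s | (f x).1 ≤ s ∧ stat Φ ε L (wd z I x) (f x) s = none} := by
    refine SC.of_up ?_ ?_
    · rintro x s t ⟨h2, h3⟩ hst
      exact ⟨h2.trans hst, stat_none_mono hΦ hε (hW x) h3 hst h2⟩
    · intro t ht
      have h2 := ((SC.stat_ne_none hΦ hε hz hI hW hf (L := L)).mem ht).compl
      refine ((measurableSet_le hf.fst ht).inter h2).congr ?_
      ext x
      simp only [mem_inter_iff, mem_ofPred_eq, mem_compl_iff, not_not]
  refine ((SC.lt hf.fst).or h1).congr fun x s => ?_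
  simp only [mem_ofPred_eq]
  constructor
  · intro h
    rcases lt_or_ge s (f x).1 with h2 | h2
    · exact Or.inl h2
    · exact Or.inr ⟨h2, h⟩
  · rintro (h | h)
    · exact stat_none_of_lt hΦ hε (hW x) h
    · exact h.2

/-- **The times at which the statuses in two worlds are different.** -/
theorem SC.stat_ne (hΦ : IsPotential Φ) (hε : 0 < ε) (hz : ∀ i, Measurable fun x => z x i)
    (hI : ∀ i, MeasurableSet {x | i ∈ I x}) (hW : ∀ x, (wd z I x).Finite)
    (hJ : ∀ i, MeasurableSet {x | i ∈ J x}) (hW' : ∀ x, (wd z J x).Finite) {f : X → Src}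
    (hf : Measurable f) :
    SC fun x => {s | stat Φ ε L (wd z I x) (f x) s ≠ stat Φ ε L (wd z J x) (f x) s} := by
  refine ((SC.iUnion fun υ : LT ι => (SC.stat_some hΦ hε hz hI hW hf υ (L := L)).and
    (SC.stat_ne_some hΦ hε hz hJ hW' hf υ (L := L))).or
    (SC.iUnion fun υ : LT ι => (SC.stat_some hΦ hε hz hJ hW' hf υ (L := L)).and
    (SC.stat_ne_some hΦ hε hz hI hW hf υ (L := L)))).congr fun x s => ?_
  simp only [mem_ofPred_eq]
  constructor
  · intro h
    by_cases h1 : stat Φ ε L (wd z I x) (f x) s = none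
    · rw [h1] at h
      obtain ⟨υ, hυ⟩ := (stat_ne_none_iff hΦ hε hW').1 (Ne.symm h)
      exact Or.inr ⟨υ, hυ, by rw [h1]; simp⟩
    · obtain ⟨υ, hυ⟩ := (stat_ne_none_iff hΦ hε hW).1 h1
      exact Or.inl ⟨υ, hυ, by rw [← hυ]; exact Ne.symm h⟩
  · rintro (⟨υ, h1, h2⟩ | ⟨υ, h1, h2⟩)
    · rw [h1]; exact Ne.symm h2
    · rw [h1]; exact h2

theorem SC.stat_eq (hΦ : IsPotential Φ) (hε : 0 < ε) (hz : ∀ i, Measurable fun x => z x i)
    (hI : ∀ i, MeasurableSet {x | i ∈ I x}) (hW : ∀ x, (wd z I x).Finite)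
    (hJ : ∀ i, MeasurableSet {x | i ∈ J x}) (hW' : ∀ x, (wd z J x).Finite) {f g : X → Src}
    (hf : Measurable f) (hg : Measurable g) :
    SC fun x => {s | stat Φ ε L (wd z I x) (f x) s = stat Φ ε L (wd z J x) (g x) s} := by
  refine (((SC.stat_none hΦ hε hz hI hW hf (L := L)).and
    (SC.stat_none hΦ hε hz hJ hW' hg (L := L))).or
    (SC.iUnion fun υ : LT ι => (SC.stat_some hΦ hε hz hI hW hf υ (L := L)).and
    (SC.stat_some hΦ hε hz hJ hW' hg υ (L := L)))).congr fun x s => ?_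
  simp only [mem_ofPred_eq]
  constructor
  · intro h
    by_cases h1 : stat Φ ε L (wd z I x) (f x) s = none
    · exact Or.inl ⟨h1, by rw [← h]; exact h1⟩
    · obtain ⟨υ, hυ⟩ := (stat_ne_none_iff hΦ hε hW).1 h1
      exact Or.inr ⟨υ, hυ, by rw [← h]; exact hυ⟩
  · rintro (⟨h1, h2⟩ | ⟨υ, h1, h2⟩)
    · rw [h1, h2]
    · rw [h1, h2]

/-! ### Contacts -/

theorem SC.partner (hΦ : IsPotential Φ) (hε : 0 < ε) (hz : ∀ i, Measurable fun x => z x i)
    (τ υ : LT ι) : SC fun x => {s | M.partner Φ ε (τ.tree (z x)) (υ.tree (z x)) s} := by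
  have hξ := measurable_ext hΦ hε.ne' hz τ (ε := ε) (Φ := Φ)
  cases τ with
  | leaf i => exact SC.false.congr fun x s => ⟨fun ⟨_, _, h, _⟩ => by simp [LT.tree] at h, fun h => h.elim⟩
  | node a b =>
    cases υ with
    | leaf i => exact SC.false.congr fun x s =>
        ⟨fun ⟨_, _, _, h, _⟩ => by simp [LT.tree] at h, fun h => h.elim⟩
    | node c d =>
      refine ((SC.cond ((measurableSet_tree_eq hz a d).inter
        (measurableSet_tree_eq hz b c))).and (SC.lt hξ)).congr fun x s => ?_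
      simp only [mem_ofPred_eq, mem_inter_iff, M.partner]
      constructor
      · rintro ⟨p, q, h1, h2, h3⟩
        simp only [LT.tree, CTree.node.injEq] at h1 h2
        exact ⟨⟨h1.1.trans h2.2.symm, h1.2.trans h2.1.symm⟩, h3⟩
      · rintro ⟨⟨h1, h2⟩, h3⟩
        exact ⟨_, _, rfl, by simp only [LT.tree, h1, h2], h3⟩

theorem SC.not_partner (hΦ : IsPotential Φ) (hε : 0 < ε) (hz : ∀ i, Measurable fun x => z x i)
    (τ υ : LT ι) : SC fun x => {s | ¬M.partner Φ ε (τ.tree (z x)) (υ.tree (z x)) s} := by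
  refine SC.of_up ?_ ?_
  · rintro x s t hs hst ⟨p, q, h1, h2, h3⟩
    exact hs ⟨p, q, h1, h2, hst.trans_lt h3⟩
  · intro t ht
    exact ((SC.partner hΦ hε hz τ υ).mem ht).compl

theorem SC.st_ctc (hΦ : IsPotential Φ) (hε : 0 < ε) (hz : ∀ i, Measurable fun x => z x i)
    (τ υ : LT ι) :
    SC fun x => {s | Ctc ε (st Φ ε (τ.tree (z x)) s) (st Φ ε (υ.tree (z x)) s)} :=
  SC.ctc (fun _ => measurable_st hΦ hε.ne' hz τ measurable_const)
    (fun _ => measurable_st hΦ hε.ne' hz υ measurable_const)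
    (fun _ => continuous_st hΦ _) (fun _ => continuous_st hΦ _)

/-- **The times at which a particle is `bad`.** -/
theorem SC.bad (hΦ : IsPotential Φ) (hε : 0 < ε) (hz : ∀ i, Measurable fun x => z x i)
    (hI : ∀ i, MeasurableSet {x | i ∈ I x}) (hW : ∀ x, (wd z I x).Finite) {f : X → Src}
    (hf : Measurable f) : SC fun x => {s | M.bad Φ ε L (wd z I x) (f x) s} := by
  have h1 : SC fun x => {s | ∃ p : ι × LT ι × LT ι,
      (p.1 ∈ I x ∧ z x p.1 ≠ f x) ∧
      stat Φ ε L (wd z I x) (f x) s = some (p.2.1.tree (z x)) ∧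
      stat Φ ε L (wd z I x) (z x p.1) s = some (p.2.2.tree (z x)) ∧
      Ctc ε (st Φ ε (p.2.1.tree (z x)) s) (st Φ ε (p.2.2.tree (z x)) s) ∧
      ¬M.partner Φ ε (p.2.1.tree (z x)) (p.2.2.tree (z x)) s} := by
    refine SC.iUnion (A := fun (p : ι × LT ι × LT ι) x => {s | (p.1 ∈ I x ∧ z x p.1 ≠ f x) ∧
      stat Φ ε L (wd z I x) (f x) s = some (p.2.1.tree (z x)) ∧
      stat Φ ε L (wd z I x) (z x p.1) s = some (p.2.2.tree (z x)) ∧
      Ctc ε (st Φ ε (p.2.1.tree (z x)) s) (st Φ ε (p.2.2.tree (z x)) s) ∧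
      ¬M.partner Φ ε (p.2.1.tree (z x)) (p.2.2.tree (z x)) s}) fun p => ?_
    exact ((SC.cond ((hI p.1).inter (measurableSet_src_eq (hz p.1) hf).compl)).and
      ((SC.stat_some hΦ hε hz hI hW hf p.2.1 (L := L)).and
      ((SC.stat_some hΦ hε hz hI hW (hz p.1) p.2.2 (L := L)).and
      ((SC.st_ctc hΦ hε hz p.2.1 p.2.2).and (SC.not_partner hΦ hε hz p.2.1 p.2.2))))).congr
        fun x s => Iff.rfl
  refine ((SC.cond (measurableSet_mem_wd hz hI hf)).and ((SC.ge hf.fst).and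
    ((SC.stat_none hΦ hε hz hI hW hf (L := L)).or h1))).congr fun x s => ?_
  simp only [mem_ofPred_eq, M.bad]
  refine and_congr_right fun _ => and_congr_right fun _ => or_congr_right ?_
  constructor
  · rintro ⟨b, T, T', hb, hne, h2, h3, h4⟩
    obtain ⟨i, hi, rfl⟩ := hb
    obtain ⟨τ, -, rfl⟩ := LT.exists_tree ((stat_eq_some_iff hΦ hε (hW x)).1 h2).2.sub
    obtain ⟨υ, -, rfl⟩ := LT.exists_tree ((stat_eq_some_iff hΦ hε (hW x)).1 h3).2.sub
    exact ⟨(i, τ, υ), ⟨hi, hne⟩, h2, h3, h4⟩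
  · rintro ⟨⟨i, τ, υ⟩, ⟨hi, hne⟩, h2, h3, h4⟩
    exact ⟨z x i, _, _, ⟨i, hi, rfl⟩, hne, h2, h3, h4⟩

end

end Vale.Agent.P119.MM
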