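import Vale.Agent.P119.MM.Time2
import Vale.Agent.P119.MM.RandSet
import Vale.Agent.P119.FB.Sys

/-!
# P119: measurability of exposure, difference and touch (`helper755`)

For `helper939`'s abstract systems `Y : FB.Sys α S` and random finite worlds `W`, `V` which are
countable measurable random sets (`RS`): if the contacts, the bad times and the differences of the
statuses are measurable sets of times (`SC`), so are `Y.Exp`, `Y.D` and `Y.Touch`.
-/

open MeasureTheory Filter Topology Set
open scoped ENNReal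

noncomputable section

namespace Vale.Agent.P119.MM

variable {X : Type*} [MeasurableSpace X] {A B : X → Set ℝ}

/-- Finite intersections and quantifiers over the elements of a random set. -/
theorem SC.exists_mem {α : Type*} [MeasurableSpace α] {W : X → Set α} (hW : RS W)
    {A : X → α → Set ℝ} (hA : ∀ f : X → α, Measurable f → SC fun x => A x (f x)) :
    SC fun x => {s | ∃ a ∈ W x, s ∈ A x a} := by
  obtain ⟨ι, hι, z, I, hz, hI, h⟩ := hW
  refine (SC.iUnion (A := fun i x => {s | x ∈ I i ∧ s ∈ A x (z i x)}) fun i =>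
    (SC.cond (hI i)).and (hA _ (hz i))).congr fun x s => ?_
  simp only [mem_ofPred_eq]
  constructor
  · rintro ⟨a, ha, hs⟩
    obtain ⟨i, hi, rfl⟩ := (h x a).1 ha
    exact ⟨i, hi, hs⟩
  · rintro ⟨i, hi, hs⟩
    exact ⟨z i x, (h x _).2 ⟨i, hi, rfl⟩, hs⟩

/-- **The up-closure.** -/
theorem SC.up (h : SC A) : SC fun x => {t | ∃ s ≤ t, s ∈ A x} :=
  SC.of_up (fun x s t ⟨r, hr, h⟩ hst => ⟨r, hr.trans hst, h⟩) fun t ht =>
    (h.exists_le ht).congr (by ext x; rfl)

/-- The strict up-closure. -/
theorem SC.up_lt (h : SC A) : SC fun x => {t | ∃ s < t, s ∈ A x} :=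
  SC.of_up (fun x s t ⟨r, hr, h⟩ hst => ⟨r, hr.trans_le hst, h⟩) fun t ht =>
    (h.exists_lt ht).congr (by ext x; rfl)

/-- The complement of an upward closed set. -/
theorem SC.compl_up (h : SC A) (hup : ∀ x s t, s ∈ A x → s ≤ t → t ∈ A x) :
    SC fun x => {t | t ∉ A x} :=
  SC.of_down (fun x s t hs hts ht => hs (hup x t s ht hts)) fun _ ht => (h.mem ht).compl

/-- The complement of a downward closed set. -/
theorem SC.compl_down (h : SC A) (hdn : ∀ x s t, s ∈ A x → t ≤ s → t ∈ A x) :
    SC fun x => {t | t ∉ A x} :=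
  SC.of_up (fun x s t hs hst ht => hs (hdn x t s ht hst)) fun _ ht => (h.mem ht).compl

variable {α S : Type*} [MeasurableSpace α] {Y : FB.Sys α S} {W V : X → Finset α}

/-- Exposure in at most `n` steps. -/
def ExpN (Y : FB.Sys α S) (W : Finset α) : ℕ → α → ℝ → Prop
  | 0, a, t => ∃ s ≤ t, Y.bad W a s
  | n + 1, a, t => ExpN Y W n a t ∨ ∃ s ≤ t, ∃ b ∈ W, ExpN Y W n b s ∧ Y.con W s a b

omit [MeasurableSpace α] in
theorem exp_iff_expN {W : Finset α} {a : α} {t : ℝ} :
    Y.Exp W a t ↔ ∃ n, ExpN Y W n a t := by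
  constructor
  · intro h
    induction h with
    | bad h1 h2 => exact ⟨0, _, h1, h2⟩
    | con h1 h2 h3 ih =>
      obtain ⟨n, hn⟩ := ih
      exact ⟨n + 1, Or.inr ⟨_, h1, _, (Y.con_mem h3).2, hn, h3⟩⟩
  · rintro ⟨n, hn⟩
    induction n generalizing a t with
    | zero =>
      obtain ⟨s, hs, h⟩ := hn
      exact .bad hs h
    | succ n ih =>
      rcases hn with hn | ⟨s, hs, b, hb, h1, h2⟩
      · exact ih hn
      · exact .con hs (ih h1) h2

/-- **Exposure.** -/
theorem SC.exp (hW : RS fun x => (W x : Set α))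
    (hb : ∀ f : X → α, Measurable f → SC fun x => {s | Y.bad (W x) (f x) s})
    (hc : ∀ f g : X → α, Measurable f → Measurable g →
      SC fun x => {s | Y.con (W x) s (f x) (g x)})
    {f : X → α} (hf : Measurable f) : SC fun x => {t | Y.Exp (W x) (f x) t} := by
  have key : ∀ n, ∀ f : X → α, Measurable f → SC fun x => {t | ExpN Y (W x) n (f x) t} := by
    intro n
    induction n with
    | zero => exact fun f hf => ((hb f hf).up).congr fun x s => Iff.rfl
    | succ n ih =>
      intro f hf
      have h1 : SC fun x => {s | ∃ b ∈ (W x : Set α), s ∈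
          (fun (x : X) (b : α) => {s | ExpN Y (W x) n b s ∧ Y.con (W x) s (f x) b}) x b} :=
        SC.exists_mem hW (A := fun (x : X) (b : α) =>
          {s | ExpN Y (W x) n b s ∧ Y.con (W x) s (f x) b})
          fun g hg => ((ih g hg).and (hc f g hf hg)).congr fun x s => Iff.rfl
      refine ((ih f hf).or h1.up).congr fun x s => ?_
      simp only [mem_ofPred_eq, ExpN, Finset.mem_coe]
  refine (SC.iUnion (fun n => key n f hf)).congr fun x s => ?_
  simp only [mem_ofPred_eq]
  exact exp_iff_expN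

/-- **Differences.** -/
theorem SC.D (hs : ∀ f : X → α, Measurable f →
      SC fun x => {s | Y.st (W x) (f x) s ≠ Y.st (V x) (f x) s})
    {f : X → α} (hf : Measurable f) : SC fun x => {t | f x ∈ Y.D (W x) (V x) t} :=
  ((hs f hf).up).congr fun x s => Iff.rfl

/-- **Touch.** -/
theorem SC.touch (hW : RS fun x => (W x : Set α)) (hV : RS fun x => (V x : Set α))
    (hb : ∀ f : X → α, Measurable f → SC fun x => {s | Y.bad (W x) (f x) s})
    (hc : ∀ f g : X → α, Measurable f → Measurable g →
      SC fun x => {s | Y.con (W x) s (f x) (g x)})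
    (hb' : ∀ f : X → α, Measurable f → SC fun x => {s | Y.bad (V x) (f x) s})
    (hc' : ∀ f g : X → α, Measurable f → Measurable g →
      SC fun x => {s | Y.con (V x) s (f x) (g x)})
    (hs : ∀ f : X → α, Measurable f →
      SC fun x => {s | Y.st (W x) (f x) s ≠ Y.st (V x) (f x) s}) :
    SC fun x => {t | Y.Touch (W x) (V x) t} := by
  have h1 : SC fun x => {t | ∃ a ∈ (W x : Set α) ∪ (V x : Set α), t ∈ (fun (x : X) (a : α) =>
      {t | a ∈ Y.D (W x) (V x) t ∧ (Y.Exp (W x) a t ∨ Y.Exp (V x) a t)}) x a} :=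
    SC.exists_mem (hW.union hV) fun g hg => ((SC.D hs hg).and
      ((SC.exp hW hb hc hg).or (SC.exp hV hb' hc' hg))).congr fun x s => Iff.rfl
  refine h1.congr fun x t => ?_
  simp only [mem_ofPred_eq, FB.Sys.Touch]
  constructor
  · rintro ⟨a, ha, h⟩
    refine ⟨a, ?_, ha, h⟩
    rcases h with h | h
    · exact Or.inl h.mem
    · exact Or.inr h.mem
  · rintro ⟨a, -, ha, h⟩
    exact ⟨a, ha, h⟩

end Vale.Agent.P119.MM
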